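import Vale.Agent.Lib.P012b.Fourier

/-!
The covering lemma: a Fourier criterion for every residue modulo a squarefree `q`
to be a sum of four bilinear terms.
-/

namespace Vale.Agent.Lib.P012b

open Finset ZMod

/-- The number of pairs of `X` that agree modulo all primes of `I`. -/
def EE (X I : Finset ℕ) : ℕ :=
  ((X ×ˢ X).filter fun z => ∀ p ∈ I, (p : ℤ) ∣ (z.1 : ℤ) - (z.2 : ℤ)).card

lemma modEq_prod_of_forall (J : Finset ℕ) (hJ : ∀ p ∈ J, p.Prime) (x y : ℕ)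
    (h : ∀ p ∈ J, x ≡ y [MOD p]) : x ≡ y [MOD ∏ p ∈ J, p] := by
  wlog hxy : x ≤ y generalizing x y
  · exact (this y x (fun p hp => (h p hp).symm) (by omega)).symm
  rw [Nat.modEq_iff_dvd' hxy]
  apply Finset.prod_primes_dvd _ (fun p hp => (hJ p hp).prime)
  intro p hp
  exact (Nat.modEq_iff_dvd' hxy).1 (h p hp)

section
variable {q : ℕ} [NeZero q]

/-- The support of a residue: the primes of `J` not dividing it. -/
def supp (J : Finset ℕ) (a : ZMod q) : Finset ℕ := J.filter fun p => ¬ p ∣ a.val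

omit [NeZero q] in
lemma supp_subset (J : Finset ℕ) (a : ZMod q) : supp J a ⊆ J := Finset.filter_subset _ _

lemma HH_le_EE (J : Finset ℕ) (hJ : ∀ p ∈ J, p.Prime) (hq : q = ∏ p ∈ J, p)
    (X : Finset ℕ) (a : ZMod q) (c : ℕ) (hc : ∀ p ∈ J, ¬ p ∣ c) :
    HH X (a * (c : ZMod q)) ≤ EE X (supp J a) := by
  apply Finset.card_le_card
  intro z hz
  rw [Finset.mem_filter] at hz ⊢
  refine ⟨hz.1, fun p hp => ?_⟩
  have hpJ := supp_subset J a hp
  have hpa : ¬ p ∣ a.val := (Finset.mem_filter.1 hp).2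
  have hpp := hJ p hpJ
  have hpq : p ∣ q := by rw [hq]; exact Finset.dvd_prod_of_mem _ hpJ
  have h0 : ((((a.val : ℤ) * (c : ℤ) * ((z.1 : ℤ) - (z.2 : ℤ))) : ℤ) : ZMod q) = 0 := by
    have h1 := hz.2
    push_cast
    rw [ZMod.natCast_zmod_val, mul_sub, h1, sub_self]
  have h2 : (q : ℤ) ∣ (a.val : ℤ) * (c : ℤ) * ((z.1 : ℤ) - (z.2 : ℤ)) :=
    (ZMod.intCast_zmod_eq_zero_iff_dvd _ _).1 h0
  have h3 : (p : ℤ) ∣ (a.val : ℤ) * (c : ℤ) * ((z.1 : ℤ) - (z.2 : ℤ)) :=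
    (Int.natCast_dvd_natCast.2 hpq).trans h2
  have hpi : Prime (p : ℤ) := Nat.prime_iff_prime_int.1 hpp
  rcases hpi.dvd_or_dvd h3 with h4 | h4
  · rcases hpi.dvd_or_dvd h4 with h5 | h5
    · exact absurd (Int.natCast_dvd_natCast.1 h5) hpa
    · exact absurd (Int.natCast_dvd_natCast.1 h5) (hc p hpJ)
  · exact h4

lemma mul_prod_supp_eq_zero (J : Finset ℕ) (hJ : ∀ p ∈ J, p.Prime) (hq : q = ∏ p ∈ J, p)
    (a : ZMod q) : a * (((∏ p ∈ supp J a, p : ℕ)) : ZMod q) = 0 := by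
  have h : q ∣ a.val * ∏ p ∈ supp J a, p := by
    refine (dvd_of_eq hq).trans ?_
    apply Finset.prod_primes_dvd _ (fun p hp => (hJ p hp).prime)
    intro p hp
    by_cases h : p ∣ a.val
    · exact h.mul_right _
    · have : p ∈ supp J a := Finset.mem_filter.2 ⟨hp, h⟩
      exact (Finset.dvd_prod_of_mem _ this).mul_left _
  have h2 := (ZMod.natCast_eq_zero_iff _ _).2 h
  rw [Nat.cast_mul, ZMod.natCast_zmod_val] at h2
  exact h2

lemma supp_ne_empty (J : Finset ℕ) (hJ : ∀ p ∈ J, p.Prime) (hq : q = ∏ p ∈ J, p)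
    (a : ZMod q) (ha : a ≠ 0) : supp J a ≠ ∅ := by
  intro h
  have := mul_prod_supp_eq_zero J hJ hq a
  rw [h] at this
  simp at this
  exact ha this

lemma card_supp_fiber_le (J : Finset ℕ) (hJ : ∀ p ∈ J, p.Prime) (hq : q = ∏ p ∈ J, p)
    (I : Finset ℕ) (hI : I ⊆ J) :
    ((univ : Finset (ZMod q)).filter fun a => supp J a = I).card ≤ ∏ p ∈ I, p := by
  classical
  have hpos : 0 < ∏ p ∈ I, p := Finset.prod_pos fun p hp => (hJ p (hI hp)).pos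
  have : ((univ : Finset (ZMod q)).filter fun a => supp J a = I).card ≤
      (range (∏ p ∈ I, p)).card := by
    refine Finset.card_le_card_of_injOn (fun a => a.val % ∏ p ∈ I, p) ?_ ?_
    · intro a _
      simp only [coe_range, Set.mem_Iio]
      exact Nat.mod_lt _ hpos
    · intro a ha a' ha' h
      simp only [coe_filter, mem_univ, true_and, Set.mem_ofPred_eq] at ha ha'
      simp only at h
      have hmod : a.val ≡ a'.val [MOD ∏ p ∈ J, p] := by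
        apply modEq_prod_of_forall J hJ
        intro p hp
        by_cases hpI : p ∈ I
        · have hd : p ∣ ∏ p ∈ I, p := Finset.dvd_prod_of_mem _ hpI
          exact Nat.ModEq.of_dvd hd h
        · have h1 : p ∣ a.val := by
            by_contra hn
            exact hpI (ha ▸ Finset.mem_filter.2 ⟨hp, hn⟩)
          have h2 : p ∣ a'.val := by
            by_contra hn
            exact hpI (ha' ▸ Finset.mem_filter.2 ⟨hp, hn⟩)
          exact ((Nat.modEq_zero_iff_dvd).2 h1).trans ((Nat.modEq_zero_iff_dvd).2 h2).symm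
      rw [← hq] at hmod
      have h3 := (ZMod.natCast_eq_natCast_iff _ _ _).2 hmod
      simpa using h3
  simpa using this

/-- `∑ ψ(a g)` form of the bilinear sum. -/
lemma bil_eq_sum (X Y : Finset ℕ) (a : ZMod q) (c : ℕ) :
    bil X Y (a * (c : ZMod q)) =
      ∑ z ∈ X ×ˢ Y, stdAddChar (a * ((c : ZMod q) * (z.1 : ZMod q) * (z.2 : ZMod q))) := by
  rw [bil, Finset.sum_product]
  refine Finset.sum_congr rfl fun x _ => ?_
  rw [tt]
  refine Finset.sum_congr rfl fun y _ => ?_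
  congr 1
  ring

lemma sum_mul_bil {β : Type*} (S : Finset β) (g : β → ZMod q) (X Y : Finset ℕ)
    (a : ZMod q) (c : ℕ) :
    (∑ z ∈ S, (stdAddChar (a * g z) : ℂ)) * bil X Y (a * (c : ZMod q)) =
      ∑ w ∈ S ×ˢ (X ×ˢ Y), stdAddChar
        (a * (g w.1 + (c : ZMod q) * (w.2.1 : ZMod q) * (w.2.2 : ZMod q))) := by
  rw [bil_eq_sum, Finset.sum_mul_sum, Finset.sum_product]
  refine Finset.sum_congr rfl fun z _ => Finset.sum_congr rfl fun w _ => ?_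
  rw [← AddChar.map_add_eq_mul]
  congr 1
  ring

lemma exp_sum_zero {β : Type*} (S : Finset β) (g : β → ZMod q) (m : ZMod q)
    (h : ∀ z ∈ S, g z ≠ m) :
    ∑ a : ZMod q, (stdAddChar (-(a * m)) : ℂ) * ∑ z ∈ S, (stdAddChar (a * g z) : ℂ) = 0 := by
  simp_rw [Finset.mul_sum]
  rw [Finset.sum_comm]
  refine Finset.sum_eq_zero fun z hz => ?_
  have h2 : ∀ a : ZMod q, (stdAddChar (-(a * m)) : ℂ) * stdAddChar (a * g z) =
      stdAddChar (a * (g z - m)) := by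
    intro a
    rw [← AddChar.map_add_eq_mul]
    congr 1
    ring
  simp_rw [h2]
  rw [AddChar.sum_mulShift _ (isPrimitive_stdAddChar q)]
  rw [if_neg (by rw [sub_eq_zero]; exact h z hz)]
  simp

lemma four_le {u₁ u₂ u₃ u₄ A : ℝ} (h₃ : 0 ≤ u₃) (h₄ : 0 ≤ u₄)
    (h1 : u₁ ^ 2 ≤ A) (h2 : u₂ ^ 2 ≤ A) (h3 : u₃ ^ 2 ≤ A) (h4 : u₄ ^ 2 ≤ A) :
    u₁ * u₂ * (u₃ * u₄) ≤ A ^ 2 := by
  have hA : 0 ≤ A := le_trans (sq_nonneg _) h1
  have a1 : u₁ * u₂ ≤ A := by nlinarith [sq_nonneg (u₁ - u₂)]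
  have a2 : u₃ * u₄ ≤ A := by nlinarith [sq_nonneg (u₃ - u₄)]
  calc u₁ * u₂ * (u₃ * u₄) ≤ A * A := mul_le_mul a1 a2 (by positivity) hA
    _ = A ^ 2 := by ring

theorem covering (J : Finset ℕ) (hJ : ∀ p ∈ J, p.Prime) (hq : q = ∏ p ∈ J, p)
    (X Y : Finset ℕ) (c₁ c₂ c₃ c₄ : ℕ)
    (hc₁ : ∀ p ∈ J, ¬ p ∣ c₁) (hc₂ : ∀ p ∈ J, ¬ p ∣ c₂)
    (hc₃ : ∀ p ∈ J, ¬ p ∣ c₃) (hc₄ : ∀ p ∈ J, ¬ p ∣ c₄)
    (hsum : ∑ I ∈ J.powerset.erase ∅, (∏ p ∈ I, p) ^ 3 * EE X I ^ 2 * EE Y I ^ 2 <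
      (X.card * Y.card) ^ 4)
    (m : ZMod q) :
    ∃ x₁ ∈ X, ∃ y₁ ∈ Y, ∃ x₂ ∈ X, ∃ y₂ ∈ Y, ∃ x₃ ∈ X, ∃ y₃ ∈ Y, ∃ x₄ ∈ X, ∃ y₄ ∈ Y,
      m = (c₁ : ZMod q) * x₁ * y₁ + (c₂ : ZMod q) * x₂ * y₂ + (c₃ : ZMod q) * x₃ * y₃ +
        (c₄ : ZMod q) * x₄ * y₄ := by
  classical
  by_contra hno
  -- the four-fold index set
  set S₁ := X ×ˢ Y with hS₁
  set S₂ := S₁ ×ˢ (X ×ˢ Y) with hS₂
  set S₃ := S₂ ×ˢ (X ×ˢ Y) with hS₃
  set S₄ := S₃ ×ˢ (X ×ˢ Y) with hS₄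
  let g₁ : ℕ × ℕ → ZMod q := fun z => (c₁ : ZMod q) * (z.1 : ZMod q) * (z.2 : ZMod q)
  let g₂ : (ℕ × ℕ) × (ℕ × ℕ) → ZMod q :=
    fun w => g₁ w.1 + (c₂ : ZMod q) * (w.2.1 : ZMod q) * (w.2.2 : ZMod q)
  let g₃ : ((ℕ × ℕ) × (ℕ × ℕ)) × (ℕ × ℕ) → ZMod q :=
    fun w => g₂ w.1 + (c₃ : ZMod q) * (w.2.1 : ZMod q) * (w.2.2 : ZMod q)
  let g₄ : (((ℕ × ℕ) × (ℕ × ℕ)) × (ℕ × ℕ)) × (ℕ × ℕ) → ZMod q :=
    fun w => g₃ w.1 + (c₄ : ZMod q) * (w.2.1 : ZMod q) * (w.2.2 : ZMod q)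
  have hprod : ∀ a : ZMod q, bil X Y (a * (c₁ : ZMod q)) * bil X Y (a * (c₂ : ZMod q)) *
      bil X Y (a * (c₃ : ZMod q)) * bil X Y (a * (c₄ : ZMod q)) =
      ∑ w ∈ S₄, (stdAddChar (a * g₄ w) : ℂ) := by
    intro a
    have h1 : bil X Y (a * (c₁ : ZMod q)) = ∑ z ∈ S₁, (stdAddChar (a * g₁ z) : ℂ) := by
      rw [bil_eq_sum]
    rw [h1, sum_mul_bil S₁ g₁, sum_mul_bil S₂ g₂, sum_mul_bil S₃ g₃]
  have hzero : ∑ a : ZMod q, (stdAddChar (-(a * m)) : ℂ) *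
      (bil X Y (a * (c₁ : ZMod q)) * bil X Y (a * (c₂ : ZMod q)) *
      bil X Y (a * (c₃ : ZMod q)) * bil X Y (a * (c₄ : ZMod q))) = 0 := by
    simp_rw [hprod]
    apply exp_sum_zero
    rintro ⟨⟨⟨⟨x₁, y₁⟩, ⟨x₂, y₂⟩⟩, ⟨x₃, y₃⟩⟩, ⟨x₄, y₄⟩⟩ hw
    intro he
    simp only [hS₄, hS₃, hS₂, hS₁, Finset.mem_product] at hw
    obtain ⟨⟨⟨⟨h1, h2⟩, h3, h4⟩, h5, h6⟩, h7, h8⟩ := hw
    exact hno ⟨x₁, h1, y₁, h2, x₂, h3, y₂, h4, x₃, h5, y₃, h6, x₄, h7, y₄, h8, he.symm⟩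
  -- isolating `a = 0`
  set T : ZMod q → ℂ := fun a => (stdAddChar (-(a * m)) : ℂ) *
      (bil X Y (a * (c₁ : ZMod q)) * bil X Y (a * (c₂ : ZMod q)) *
      bil X Y (a * (c₃ : ZMod q)) * bil X Y (a * (c₄ : ZMod q))) with hT
  have hT0 : T 0 = (((X.card * Y.card : ℕ) : ℂ)) ^ 4 := by
    have hb : bil X Y (0 : ZMod q) = ((X.card * Y.card : ℕ) : ℂ) := by
      simp [bil, tt]
    simp only [hT, zero_mul, neg_zero, AddChar.map_zero_eq_one, one_mul]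
    rw [hb]
    ring
  have hsplit : T 0 = - ∑ a ∈ (univ : Finset (ZMod q)).erase 0, T a := by
    have := Finset.add_sum_erase (univ : Finset (ZMod q)) T (mem_univ 0)
    rw [show ∑ a, T a = 0 from hzero] at this
    exact eq_neg_of_add_eq_zero_left this
  have hnorm : (((X.card * Y.card : ℕ) : ℝ)) ^ 4 ≤
      ∑ a ∈ (univ : Finset (ZMod q)).erase 0, ‖T a‖ := by
    have h1 : ‖T 0‖ = (((X.card * Y.card : ℕ) : ℝ)) ^ 4 := by
      rw [hT0]; simp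
    rw [← h1, hsplit, norm_neg]
    exact norm_sum_le _ _
  -- the pointwise bound
  let A : Finset ℕ → ℝ := fun I => ((∏ p ∈ I, p : ℕ) : ℝ) * EE X I * EE Y I
  have hpt : ∀ a : ZMod q, ‖T a‖ ≤ (A (supp J a)) ^ 2 := by
    intro a
    have hbd : ∀ c : ℕ, (∀ p ∈ J, ¬ p ∣ c) → ‖bil X Y (a * (c : ZMod q))‖ ^ 2 ≤ A (supp J a) := by
      intro c hc
      have hrq : (∏ p ∈ supp J a, p) ∣ q := by
        refine Dvd.dvd.trans ?_ (dvd_of_eq hq.symm)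
        exact Finset.prod_dvd_prod_of_subset _ _ _ (supp_subset J a)
      have hz : (a * (c : ZMod q)) * (((∏ p ∈ supp J a, p : ℕ)) : ZMod q) = 0 := by
        have := mul_prod_supp_eq_zero J hJ hq a
        calc (a * (c : ZMod q)) * (((∏ p ∈ supp J a, p : ℕ)) : ZMod q)
            = (a * (((∏ p ∈ supp J a, p : ℕ)) : ZMod q)) * (c : ZMod q) := by ring
          _ = 0 := by rw [this, zero_mul]
      refine (bil_bound' X Y _ _ hrq hz).trans ?_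
      have h1 : (HH X (a * (c : ZMod q)) : ℝ) ≤ EE X (supp J a) := by
        exact_mod_cast HH_le_EE J hJ hq X a c hc
      have h2 : (HH Y (a * (c : ZMod q)) : ℝ) ≤ EE Y (supp J a) := by
        exact_mod_cast HH_le_EE J hJ hq Y a c hc
      simp only [A]
      gcongr
    have hone : ‖(stdAddChar (-(a * m)) : ℂ)‖ = 1 := AddChar.norm_apply _ _
    rw [hT]
    simp only [norm_mul, hone, one_mul]
    rw [mul_assoc (‖bil X Y (a * (c₁ : ZMod q))‖ * ‖bil X Y (a * (c₂ : ZMod q))‖)]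
    exact four_le (norm_nonneg _) (norm_nonneg _)
      (hbd c₁ hc₁) (hbd c₂ hc₂) (hbd c₃ hc₃) (hbd c₄ hc₄)
  -- summing by support
  have hmaps : ∀ a ∈ (univ : Finset (ZMod q)).erase 0, supp J a ∈ J.powerset.erase ∅ := by
    intro a ha
    refine Finset.mem_erase.2 ⟨supp_ne_empty J hJ hq a (Finset.mem_erase.1 ha).1, ?_⟩
    exact Finset.mem_powerset.2 (supp_subset J a)
  have hsum2 : ∑ a ∈ (univ : Finset (ZMod q)).erase 0, ‖T a‖ ≤
      ∑ I ∈ J.powerset.erase ∅, (((∏ p ∈ I, p) ^ 3 * EE X I ^ 2 * EE Y I ^ 2 : ℕ) : ℝ) := by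
    calc ∑ a ∈ (univ : Finset (ZMod q)).erase 0, ‖T a‖
        ≤ ∑ a ∈ (univ : Finset (ZMod q)).erase 0, (A (supp J a)) ^ 2 :=
          Finset.sum_le_sum fun a _ => hpt a
      _ = ∑ I ∈ J.powerset.erase ∅, ∑ a ∈ (univ : Finset (ZMod q)).erase 0 with supp J a = I,
            (A (supp J a)) ^ 2 := (Finset.sum_fiberwise_of_maps_to hmaps _).symm
      _ ≤ _ := by
          refine Finset.sum_le_sum fun I hI => ?_
          have hIJ : I ⊆ J := Finset.mem_powerset.1 (Finset.mem_erase.1 hI).2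
          have h1 : ∑ a ∈ (univ : Finset (ZMod q)).erase 0 with supp J a = I,
              (A (supp J a)) ^ 2 = ∑ a ∈ (univ : Finset (ZMod q)).erase 0 with supp J a = I,
              (A I) ^ 2 := by
            refine Finset.sum_congr rfl fun a ha => ?_
            rw [(Finset.mem_filter.1 ha).2]
          rw [h1, Finset.sum_const, nsmul_eq_mul]
          have h2 : (((univ : Finset (ZMod q)).erase 0).filter fun a => supp J a = I).card ≤
              ∏ p ∈ I, p := by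
            refine le_trans (Finset.card_le_card ?_) (card_supp_fiber_le J hJ hq I hIJ)
            exact Finset.filter_subset_filter _ (Finset.erase_subset _ _)
          have h3 : (((((univ : Finset (ZMod q)).erase 0).filter fun a => supp J a = I).card : ℕ) : ℝ)
              ≤ ((∏ p ∈ I, p : ℕ) : ℝ) := by exact_mod_cast h2
          calc _ ≤ ((∏ p ∈ I, p : ℕ) : ℝ) * (A I) ^ 2 := by gcongr
            _ = _ := by
              simp only [A]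
              push_cast
              ring
  have hfinal : (((X.card * Y.card : ℕ) : ℝ)) ^ 4 ≤
      ((∑ I ∈ J.powerset.erase ∅, (∏ p ∈ I, p) ^ 3 * EE X I ^ 2 * EE Y I ^ 2 : ℕ) : ℝ) := by
    rw [Nat.cast_sum]
    exact hnorm.trans hsum2
  have hlt : ((∑ I ∈ J.powerset.erase ∅, (∏ p ∈ I, p) ^ 3 * EE X I ^ 2 * EE Y I ^ 2 : ℕ) : ℝ) <
      (((X.card * Y.card : ℕ) : ℝ)) ^ 4 := by exact_mod_cast hsum
  exact absurd hlt (not_lt.2 hfinal)

end

end Vale.Agent.Lib.P012b
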