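import Vale.Agent.Lib.P012b.Levels

/-!
From representations by divisors to Egyptian fractions, and the final bound.
-/

namespace Vale.Agent.Lib.P012b

open Finset

theorem egypt (N f a b : ℕ) (hrep : Rep N f) (ha : 1 ≤ a) (hab : a < b) (hb : b ≤ N) :
    ∃ S : Finset ℕ, (∀ n ∈ S, 2 ≤ n) ∧ S.card ≤ 2 * f ∧ ∑ n ∈ S, (1 / (n : ℚ)) = a / b := by
  classical
  have hbpos : 0 < b := by omega
  have hNpos : 0 < N := by omega
  set A := a * N / b with hA
  set B := a * N % b with hB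
  have hAB : b * A + B = a * N := Nat.div_add_mod _ _
  have hBb : B < b := Nat.mod_lt _ hbpos
  have hAN : A < N := by
    rw [hA]
    apply Nat.div_lt_of_lt_mul
    exact Nat.mul_lt_mul_of_pos_right hab hNpos
  obtain ⟨S₁, h11, h12, h13⟩ := hrep A hAN.le
  obtain ⟨S₂, h21, h22, h23⟩ := hrep B (by omega)
  have hdiv : ∀ d, d ∣ N → 0 < d ∧ d * (N / d) = N ∧ 0 < N / d := by
    intro d hd
    have h0 : 0 < d := Nat.pos_of_dvd_of_pos hd hNpos
    exact ⟨h0, Nat.mul_div_cancel' hd, Nat.div_pos (Nat.le_of_dvd hNpos hd) h0⟩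
  have hle₁ : ∀ d ∈ S₁, d ≤ A := fun d hd => by
    rw [← h13]
    exact Finset.single_le_sum (f := fun x => x) (fun _ _ => Nat.zero_le _) hd
  have hle₂ : ∀ d ∈ S₂, d ≤ B := fun d hd => by
    rw [← h23]
    exact Finset.single_le_sum (f := fun x => x) (fun _ _ => Nat.zero_le _) hd
  have hinj₁ : Set.InjOn (fun d => N / d) (S₁ : Set ℕ) := by
    intro d hd d' hd' h
    obtain ⟨h1, h2, h3⟩ := hdiv d (h11 d hd)
    obtain ⟨h4, h5, h6⟩ := hdiv d' (h11 d' hd')
    simp only at h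
    rw [← h] at h5
    exact Nat.eq_of_mul_eq_mul_right h3 (h2.trans h5.symm)
  have hinj₂ : Set.InjOn (fun d => b * (N / d)) (S₂ : Set ℕ) := by
    intro d hd d' hd' h
    obtain ⟨h1, h2, h3⟩ := hdiv d (h21 d hd)
    obtain ⟨h4, h5, h6⟩ := hdiv d' (h21 d' hd')
    have h7 : N / d = N / d' := Nat.eq_of_mul_eq_mul_left hbpos h
    rw [← h7] at h5
    exact Nat.eq_of_mul_eq_mul_right h3 (h2.trans h5.symm)
  have hdisj : Disjoint (S₁.image fun d => N / d) (S₂.image fun d => b * (N / d)) := by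
    rw [Finset.disjoint_left]
    intro n hn hn'
    obtain ⟨d, hd, rfl⟩ := Finset.mem_image.1 hn
    obtain ⟨d', hd', he⟩ := Finset.mem_image.1 hn'
    have h1 : N / d ≤ N := Nat.div_le_self _ _
    obtain ⟨h2, h3, h4⟩ := hdiv d' (h21 d' hd')
    have h5 := hle₂ d' hd'
    have h6 : N < b * (N / d') := by
      calc N = d' * (N / d') := h3.symm
        _ < b * (N / d') := Nat.mul_lt_mul_of_pos_right (by omega) h4
    omega
  refine ⟨(S₁.image fun d => N / d) ∪ (S₂.image fun d => b * (N / d)), ?_, ?_, ?_⟩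
  · intro n hn
    rcases Finset.mem_union.1 hn with hn | hn
    · obtain ⟨d, hd, rfl⟩ := Finset.mem_image.1 hn
      obtain ⟨h1, h2, h3⟩ := hdiv d (h11 d hd)
      have h4 := hle₁ d hd
      by_contra hlt
      have h5 : N / d = 1 := by omega
      rw [h5] at h2
      omega
    · obtain ⟨d, hd, rfl⟩ := Finset.mem_image.1 hn
      obtain ⟨h1, h2, h3⟩ := hdiv d (h21 d hd)
      have h4 := hle₂ d hd
      have h6 : d * (N / d) < b * (N / d) := Nat.mul_lt_mul_of_pos_right (by omega) h3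
      have h7 : 1 ≤ N := hNpos
      omega
  · calc _ ≤ (S₁.image fun d => N / d).card + (S₂.image fun d => b * (N / d)).card :=
          Finset.card_union_le _ _
      _ ≤ S₁.card + S₂.card := Nat.add_le_add Finset.card_image_le Finset.card_image_le
      _ ≤ 2 * f := by omega
  · have hNq : (N : ℚ) ≠ 0 := by exact_mod_cast hNpos.ne'
    have hbq : (b : ℚ) ≠ 0 := by exact_mod_cast hbpos.ne'
    rw [Finset.sum_union hdisj, Finset.sum_image hinj₁, Finset.sum_image hinj₂]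
    have hs₁ : ∑ d ∈ S₁, (1 / ((N / d : ℕ) : ℚ)) = (A : ℚ) / N := by
      rw [← h13]
      push_cast
      rw [Finset.sum_div]
      refine Finset.sum_congr rfl fun d hd => ?_
      obtain ⟨h1, _, _⟩ := hdiv d (h11 d hd)
      have hdq : (d : ℚ) ≠ 0 := by exact_mod_cast h1.ne'
      rw [Nat.cast_div (h11 d hd) hdq]
      field_simp
    have hs₂ : ∑ d ∈ S₂, (1 / ((b * (N / d) : ℕ) : ℚ)) = (B : ℚ) / (b * N) := by
      rw [← h23]
      push_cast
      rw [Finset.sum_div]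
      refine Finset.sum_congr rfl fun d hd => ?_
      obtain ⟨h1, _, _⟩ := hdiv d (h21 d hd)
      have hdq : (d : ℚ) ≠ 0 := by exact_mod_cast h1.ne'
      rw [Nat.cast_div (h21 d hd) hdq]
      field_simp
    rw [hs₁, hs₂]
    have hABq : (b : ℚ) * A + B = a * N := by exact_mod_cast hAB
    field_simp
    linarith

lemma two_pow_card_le_prod (P : Finset ℕ) (h : ∀ p ∈ P, p.Prime) : 2 ^ P.card ≤ ∏ p ∈ P, p := by
  rw [← Finset.prod_const]
  exact Finset.prod_le_prod' fun p hp => (h p hp).two_le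

/-- The main theorem in the naturals. -/
theorem exists_rep_of_clog : ∃ f₀ : ℕ, ∀ a b : ℕ, 1 ≤ a → a < b →
    ∃ S : Finset ℕ, (∀ n ∈ S, 2 ≤ n) ∧
      S.card ≤ 2 * (f₀ + 1600 * Nat.clog 2 (Nat.clog 2 b) * (16 + Nat.clog 2 (Nat.clog 2 b))) ∧
      ∑ n ∈ S, (1 / (n : ℚ)) = a / b := by
  obtain ⟨f₀, hf₀⟩ := good_all
  refine ⟨f₀, fun a b ha hab => ?_⟩
  set t := Nat.clog 2 (Nat.clog 2 b) with ht
  obtain ⟨P, h1, _, h3, _, h5⟩ := hf₀ t
  refine egypt _ _ a b h5 ha hab ?_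
  have h6 : b ≤ 2 ^ Nat.clog 2 b := Nat.le_pow_clog (by norm_num) b
  have h7 : Nat.clog 2 b ≤ 2 ^ t := Nat.le_pow_clog (by norm_num) _
  have h8 : t ≤ 15 + t := by omega
  have h9 : 2 ^ t ≤ 2 ^ (15 + t) := Nat.pow_le_pow_right (by norm_num) h8
  calc b ≤ 2 ^ Nat.clog 2 b := h6
    _ ≤ 2 ^ P.card := Nat.pow_le_pow_right (by norm_num) (h7.trans (h9.trans h3))
    _ ≤ _ := two_pow_card_le_prod P h1

/-- Real estimates for the iterated ceiling logarithm. -/
lemma clog_clog_le (b : ℕ) (hb : 16 ≤ b) :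
    1 ≤ Real.log (Real.log b) ∧ (Nat.clog 2 (Nat.clog 2 b) : ℝ) ≤ 4 * Real.log (Real.log b) := by
  have hlog2 : 0.6931471803 < Real.log 2 := Real.log_two_gt_d9
  have hlog2' : Real.log 2 < 0.6931471808 := Real.log_two_lt_d9
  have hb1 : (16 : ℝ) ≤ b := by exact_mod_cast hb
  have hlogb : 4 * Real.log 2 ≤ Real.log b := by
    have : Real.log 16 = 4 * Real.log 2 := by
      rw [show (16 : ℝ) = 2 ^ 4 by norm_num, Real.log_pow]
      norm_num
    rw [← this]
    exact Real.log_le_log (by norm_num) hb1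
  have he := Real.exp_one_lt_d9
  have hL : 1 ≤ Real.log (Real.log b) := by
    rw [Real.le_log_iff_exp_le (by linarith)]
    linarith
  refine ⟨hL, ?_⟩
  -- the first ceiling logarithm
  set l := Nat.clog 2 b with hl
  have hl1 : (l : ℝ) ≤ 2 * Real.log b := by
    have h1 : 2 ^ (l - 1) < b := by
      have := Nat.pow_pred_clog_lt_self (b := 2) (by norm_num) (x := b) (by omega)
      simpa [Nat.pred_eq_sub_one] using this
    have h2 : ((l - 1 : ℕ) : ℝ) * Real.log 2 ≤ Real.log b := by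
      rw [← Real.log_pow]
      apply Real.log_le_log (by positivity)
      exact_mod_cast h1.le
    have h3 : (l : ℝ) ≤ ((l - 1 : ℕ) : ℝ) + 1 := by
      have : l ≤ (l - 1) + 1 := by omega
      exact_mod_cast this
    have h4 : ((l - 1 : ℕ) : ℝ) ≤ Real.log b / Real.log 2 := by
      rw [le_div_iff₀ (by linarith)]
      exact h2
    have h5 : Real.log b / Real.log 2 ≤ 1.5 * Real.log b := by
      rw [div_le_iff₀ (by linarith)]
      nlinarith
    nlinarith
  have hl2 : 2 ≤ l := by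
    rw [hl]
    have : 2 ≤ Nat.clog 2 16 := by
      decide
    exact this.trans (Nat.clog_mono_right 2 hb)
  set t := Nat.clog 2 l with ht
  have h1 : 2 ^ (t - 1) < l := by
    have := Nat.pow_pred_clog_lt_self (b := 2) (by norm_num) (x := l) (by omega)
    simpa [Nat.pred_eq_sub_one] using this
  have h2 : ((t - 1 : ℕ) : ℝ) * Real.log 2 ≤ Real.log l := by
    rw [← Real.log_pow]
    apply Real.log_le_log (by positivity)
    exact_mod_cast h1.le
  have hlogl : Real.log l ≤ Real.log 2 + Real.log (Real.log b) := by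
    rw [← Real.log_mul (by norm_num) (by linarith)]
    apply Real.log_le_log _ hl1
    exact_mod_cast (by omega : 0 < l)
  have h3 : (t : ℝ) ≤ ((t - 1 : ℕ) : ℝ) + 1 := by
    have : t ≤ (t - 1) + 1 := by omega
    exact_mod_cast this
  have h4 : ((t - 1 : ℕ) : ℝ) ≤ (Real.log 2 + Real.log (Real.log b)) / Real.log 2 := by
    rw [le_div_iff₀ (by linarith)]
    linarith
  have h5 : (Real.log 2 + Real.log (Real.log b)) / Real.log 2 ≤ 1 + 1.5 * Real.log (Real.log b) := by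
    rw [div_le_iff₀ (by linarith)]
    nlinarith
  linarith

/-- Short Egyptian fractions: `N(b) ≪ (log log b)²`. -/
theorem main_theorem : ∃ C : ℝ, ∀ a b : ℕ, 1 ≤ a → a < b → 16 ≤ b →
    ∃ S : Finset ℕ, (∀ n ∈ S, 2 ≤ n) ∧ (S.card : ℝ) ≤ C * (Real.log (Real.log b)) ^ 2 ∧
      ∑ n ∈ S, (1 / (n : ℚ)) = a / b := by
  obtain ⟨f₀, h⟩ := exists_rep_of_clog
  refine ⟨2 * f₀ + 256000, fun a b ha hab hb => ?_⟩
  obtain ⟨S, h1, h2, h3⟩ := h a b ha hab
  refine ⟨S, h1, ?_, h3⟩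
  obtain ⟨hL, ht⟩ := clog_clog_le b hb
  set L := Real.log (Real.log b) with hLdef
  set t := Nat.clog 2 (Nat.clog 2 b) with htdef
  have h4 : (S.card : ℝ) ≤ 2 * ((f₀ : ℝ) + 1600 * t * (16 + t)) := by exact_mod_cast h2
  have ht0 : (0 : ℝ) ≤ t := by positivity
  have h5 : (t : ℝ) * (16 + t) ≤ 4 * L * (20 * L) := by
    have : (16 : ℝ) + t ≤ 20 * L := by linarith
    exact mul_le_mul ht this (by positivity) (by linarith)
  have h6 : 1 ≤ L ^ 2 := one_le_pow₀ hL
  have hf : (0 : ℝ) ≤ f₀ := by positivity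
  calc (S.card : ℝ) ≤ 2 * ((f₀ : ℝ) + 1600 * t * (16 + t)) := h4
    _ = 2 * f₀ + 3200 * ((t : ℝ) * (16 + t)) := by ring
    _ ≤ 2 * f₀ + 3200 * (4 * L * (20 * L)) := by gcongr
    _ = 2 * f₀ + 256000 * L ^ 2 := by ring
    _ ≤ 2 * f₀ * L ^ 2 + 256000 * L ^ 2 := by nlinarith
    _ = _ := by ring

end Vale.Agent.Lib.P012b
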