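import Mathlib

/-!
Fourier analysis on `ZMod q`: the second moment identity and the bilinear bound used for
the covering lemma of P012.
-/

namespace Vale.Agent.Lib.P012b

open Finset ZMod

variable {q : ℕ} [NeZero q]

/-- `t(v) = ∑_{y ∈ Y} ψ(v y)`. -/
noncomputable def tt (Y : Finset ℕ) (v : ZMod q) : ℂ :=
  ∑ y ∈ Y, stdAddChar (v * (y : ZMod q))

/-- The bilinear sum `∑_{x ∈ X} ∑_{y ∈ Y} ψ(b x y)`. -/
noncomputable def bil (X Y : Finset ℕ) (b : ZMod q) : ℂ :=
  ∑ x ∈ X, tt Y (b * (x : ZMod q))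

/-- The number of pairs with `b x = b x'`. -/
def HH (X : Finset ℕ) (b : ZMod q) : ℕ :=
  ((X ×ˢ X).filter fun z => b * (z.1 : ZMod q) = b * (z.2 : ZMod q)).card

lemma norm_tt_sq_eq (Y : Finset ℕ) (v : ZMod q) :
    ((‖tt Y v‖ ^ 2 : ℝ) : ℂ) =
      ∑ z ∈ Y ×ˢ Y, stdAddChar (v * ((z.1 : ZMod q) - (z.2 : ZMod q))) := by
  have h1 : ((‖tt Y v‖ ^ 2 : ℝ) : ℂ) = tt Y v * (starRingEnd ℂ) (tt Y v) := by
    rw [Complex.mul_conj, Complex.normSq_eq_norm_sq]
  rw [h1, tt, map_sum, Finset.sum_mul_sum, Finset.sum_product]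
  refine Finset.sum_congr rfl fun x _ => Finset.sum_congr rfl fun y _ => ?_
  rw [← AddChar.map_neg_eq_conj, ← AddChar.map_add_eq_mul]
  congr 1
  ring

lemma sum_norm_tt_sq (Y : Finset ℕ) (b : ZMod q) :
    ∑ u : ZMod q, ‖tt Y (b * u)‖ ^ 2 = (q : ℝ) * HH Y b := by
  have h : ((∑ u : ZMod q, ‖tt Y (b * u)‖ ^ 2 : ℝ) : ℂ) = ((q : ℝ) * HH Y b : ℝ) := by
    push_cast
    have h2 : ∀ u : ZMod q, ((‖tt Y (b * u)‖ : ℂ)) ^ 2 =
        ∑ z ∈ Y ×ˢ Y, stdAddChar (u * (b * ((z.1 : ZMod q) - (z.2 : ZMod q)))) := by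
      intro u
      have := norm_tt_sq_eq Y (b * u)
      push_cast at this
      rw [this]
      refine Finset.sum_congr rfl fun z _ => ?_
      congr 1
      ring
    simp_rw [h2]
    rw [Finset.sum_comm]
    simp_rw [AddChar.sum_mulShift _ (isPrimitive_stdAddChar q)]
    rw [HH, Finset.card_filter]
    push_cast
    rw [Finset.mul_sum]
    refine Finset.sum_congr rfl fun z _ => ?_
    simp only [ZMod.card, mul_sub, sub_eq_zero]
    split_ifs <;> simp
  exact_mod_cast h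

/-- The bilinear bound: if `K` has `h` elements annihilated by `b` then
`h ‖F(b)‖² ≤ q H_X H_Y`. -/
lemma bil_bound (X Y : Finset ℕ) (b : ZMod q) (K : Finset (ZMod q)) (hK : ∀ k ∈ K, b * k = 0) :
    (K.card : ℝ) * ‖bil X Y b‖ ^ 2 ≤ (q : ℝ) * HH X b * HH Y b := by
  classical
  -- group the `x` by the value of `b x`
  set V := X.image (fun x : ℕ => b * (x : ZMod q)) with hV
  set n : ZMod q → ℕ := fun v => (X.filter fun x : ℕ => b * (x : ZMod q) = v).card with hn
  have hF : bil X Y b = ∑ v ∈ V, (n v : ℂ) * tt Y v := by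
    rw [bil]
    have := Finset.sum_comp (s := X) (fun v => tt Y v) (fun x : ℕ => b * (x : ZMod q))
    rw [this]
    refine Finset.sum_congr rfl fun v _ => ?_
    rw [nsmul_eq_mul]
  have hHX : ∑ v ∈ V, ((n v : ℝ)) ^ 2 = HH X b := by
    have h1 : (HH X b) = ∑ x ∈ X, n (b * (x : ZMod q)) := by
      rw [HH, Finset.card_filter, Finset.sum_product]
      refine Finset.sum_congr rfl fun x _ => ?_
      rw [hn]
      simp only
      rw [Finset.card_filter]
      refine Finset.sum_congr rfl fun y _ => ?_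
      by_cases h : b * (x : ZMod q) = b * (y : ZMod q)
      · simp [h]
      · have h' : ¬ b * (y : ZMod q) = b * (x : ZMod q) := fun e => h e.symm
        simp [h, h']
    have h2 := Finset.sum_comp (s := X) (fun v => n v) (fun x : ℕ => b * (x : ZMod q))
    rw [h1, h2]
    push_cast
    refine Finset.sum_congr rfl fun v _ => ?_
    rw [nsmul_eq_mul]
    push_cast
    ring
  -- Cauchy-Schwarz
  have hCS : ‖bil X Y b‖ ^ 2 ≤ (HH X b : ℝ) * ∑ v ∈ V, ‖tt Y v‖ ^ 2 := by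
    have h1 : ‖bil X Y b‖ ≤ ∑ v ∈ V, (n v : ℝ) * ‖tt Y v‖ := by
      rw [hF]
      refine (norm_sum_le _ _).trans (le_of_eq ?_)
      refine Finset.sum_congr rfl fun v _ => ?_
      simp
    have h2 := Finset.sum_mul_sq_le_sq_mul_sq V (fun v => (n v : ℝ)) (fun v => ‖tt Y v‖)
    rw [hHX] at h2
    calc ‖bil X Y b‖ ^ 2 ≤ (∑ v ∈ V, (n v : ℝ) * ‖tt Y v‖) ^ 2 := by
          apply pow_le_pow_left₀ (norm_nonneg _) h1
      _ ≤ _ := h2
  -- second moment on the image
  have hSM : (K.card : ℝ) * ∑ v ∈ V, ‖tt Y v‖ ^ 2 ≤ (q : ℝ) * HH Y b := by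
    rw [← sum_norm_tt_sq Y b]
    -- each `v ∈ V` has at least `K.card` preimages
    have hfib : ∀ v ∈ V, K.card ≤ ((univ : Finset (ZMod q)).filter fun u => b * u = v).card := by
      intro v hv
      obtain ⟨x, _, rfl⟩ := Finset.mem_image.1 hv
      refine Finset.card_le_card_of_injOn (fun k => k + (x : ZMod q)) ?_ ?_
      · intro k hk
        simp only [coe_filter, mem_univ, true_and, Set.mem_ofPred_eq]
        rw [mul_add, hK k hk, zero_add]
      · intro k _ k' _ h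
        exact add_right_cancel h
    have h3 : ∑ v ∈ V, (K.card : ℝ) * ‖tt Y v‖ ^ 2 ≤
        ∑ v ∈ V, ∑ u ∈ (univ : Finset (ZMod q)).filter (fun u => b * u = v), ‖tt Y (b * u)‖ ^ 2 := by
      refine Finset.sum_le_sum fun v hv => ?_
      have : ∑ u ∈ (univ : Finset (ZMod q)).filter (fun u => b * u = v), ‖tt Y (b * u)‖ ^ 2 =
          (((univ : Finset (ZMod q)).filter fun u => b * u = v).card : ℝ) * ‖tt Y v‖ ^ 2 := by
        rw [← nsmul_eq_mul, ← Finset.sum_const]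
        refine Finset.sum_congr rfl fun u hu => ?_
        rw [(Finset.mem_filter.1 hu).2]
      rw [this]
      have := hfib v hv
      gcongr
    rw [Finset.mul_sum]
    refine h3.trans ?_
    -- disjoint fibres
    rw [← Finset.sum_biUnion]
    · refine Finset.sum_le_sum_of_subset_of_nonneg (Finset.subset_univ _) fun _ _ _ => by positivity
    · intro v _ v' _ hvv'
      refine Finset.disjoint_left.2 fun u hu hu' => hvv' ?_
      rw [← (Finset.mem_filter.1 hu).2, (Finset.mem_filter.1 hu').2]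
  have hK0 : (0 : ℝ) ≤ K.card := by positivity
  have hX0 : (0 : ℝ) ≤ HH X b := by positivity
  calc (K.card : ℝ) * ‖bil X Y b‖ ^ 2
      ≤ (K.card : ℝ) * ((HH X b : ℝ) * ∑ v ∈ V, ‖tt Y v‖ ^ 2) := by gcongr
    _ = (HH X b : ℝ) * ((K.card : ℝ) * ∑ v ∈ V, ‖tt Y v‖ ^ 2) := by ring
    _ ≤ (HH X b : ℝ) * ((q : ℝ) * HH Y b) := by gcongr
    _ = (q : ℝ) * HH X b * HH Y b := by ring

/-- If `b r = 0` with `r ∣ q` then `‖F(b)‖² ≤ r H_X H_Y`. -/
lemma bil_bound' (X Y : Finset ℕ) (b : ZMod q) (r : ℕ) (hr : r ∣ q) (hb : b * (r : ZMod q) = 0) :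
    ‖bil X Y b‖ ^ 2 ≤ (r : ℝ) * HH X b * HH Y b := by
  classical
  obtain ⟨t, ht⟩ := hr
  have hq : 0 < q := Nat.pos_of_ne_zero (NeZero.ne q)
  have hr0 : 0 < r := Nat.pos_of_ne_zero (by rintro rfl; simp at ht; omega)
  have ht0 : 0 < t := Nat.pos_of_ne_zero (by rintro rfl; simp at ht; omega)
  set K : Finset (ZMod q) := (range t).image (fun i : ℕ => ((r * i : ℕ) : ZMod q)) with hKdef
  have hKcard : K.card = t := by
    rw [hKdef, Finset.card_image_of_injOn, Finset.card_range]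
    intro i hi j hj h
    simp only [coe_range, Set.mem_Iio] at hi hj
    have hi' : r * i < q := by rw [ht]; exact Nat.mul_lt_mul_of_pos_left hi hr0
    have hj' : r * j < q := by rw [ht]; exact Nat.mul_lt_mul_of_pos_left hj hr0
    have := (ZMod.natCast_eq_natCast_iff' _ _ _).1 h
    rw [Nat.mod_eq_of_lt hi', Nat.mod_eq_of_lt hj'] at this
    exact Nat.eq_of_mul_eq_mul_left hr0 this
  have hK : ∀ k ∈ K, b * k = 0 := by
    intro k hk
    obtain ⟨i, _, rfl⟩ := Finset.mem_image.1 hk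
    push_cast
    rw [← mul_assoc, hb, zero_mul]
  have h := bil_bound X Y b K hK
  rw [hKcard] at h
  have hqr : (q : ℝ) = r * t := by rw [ht]; push_cast; ring
  rw [hqr] at h
  have ht' : (0 : ℝ) < t := by exact_mod_cast ht0
  have h2 : (t : ℝ) * ‖bil X Y b‖ ^ 2 ≤ (t : ℝ) * ((r : ℝ) * HH X b * HH Y b) := by
    calc (t : ℝ) * ‖bil X Y b‖ ^ 2 ≤ (r : ℝ) * t * HH X b * HH Y b := h
      _ = _ := by ring
  exact le_of_mul_le_mul_left h2 ht'

end Vale.Agent.Lib.P012b
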