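import Mathlib

/-!
The greedy choice of primes via a multiplicative potential.
-/

namespace Vale.Agent.Lib.P012b

open Finset

open Classical in
/-- The potential `Φ(J) = ∑_{i ∈ V} (1 + w)^{#{p ∈ J : R p i}}`. -/
noncomputable def Phi {α : Type*} (V : Finset α) (R : ℕ → α → Prop) (w : ℝ) (J : Finset ℕ) : ℝ :=
  ∑ i ∈ V, (1 + w) ^ (J.filter fun p => R p i).card

open Classical in
lemma greedy_one {α : Type*} (V : Finset α) (R : ℕ → α → Prop) (w : ℝ) (hw : 0 ≤ w) (W : ℕ)
    (Pool J : Finset ℕ) (hW : ∀ i ∈ V, (Pool.filter fun p => R p i).card ≤ W)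
    (hne : (Pool \ J).Nonempty) :
    ∃ p ∈ Pool \ J, Phi V R w (insert p J) ≤
      Phi V R w J * (1 + w * W / ((Pool \ J).card : ℝ)) := by
  set P' := Pool \ J with hP'
  have hcard : (0 : ℝ) < P'.card := by exact_mod_cast hne.card_pos
  have hins : ∀ p ∈ P', ∀ i, (1 + w) ^ ((insert p J).filter fun p => R p i).card =
      (1 + w) ^ (J.filter fun p => R p i).card * (1 + w * (if R p i then 1 else 0)) := by
    intro p hp i
    have hpJ : p ∉ J := (Finset.mem_sdiff.1 hp).2
    rw [Finset.filter_insert]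
    by_cases h : R p i
    · rw [if_pos h, Finset.card_insert_of_notMem (by simp [hpJ]), if_pos h, pow_succ]
      ring
    · rw [if_neg h, if_neg h]
      ring
  have hsum : ∑ p ∈ P', Phi V R w (insert p J) ≤ Phi V R w J * ((P'.card : ℝ) + w * W) := by
    simp only [Phi]
    rw [Finset.sum_comm, Finset.sum_mul]
    refine Finset.sum_le_sum fun i hi => ?_
    have h1 : ∑ p ∈ P', (1 + w) ^ ((insert p J).filter fun p => R p i).card =
        (1 + w) ^ (J.filter fun p => R p i).card *
          ∑ p ∈ P', (1 + w * (if R p i then 1 else 0)) := by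
      rw [Finset.mul_sum]
      exact Finset.sum_congr rfl fun p hp => hins p hp i
    rw [h1]
    have h2 : ∑ p ∈ P', (1 + w * (if R p i then (1 : ℝ) else 0)) ≤ (P'.card : ℝ) + w * W := by
      rw [Finset.sum_add_distrib, ← Finset.mul_sum]
      have h3 : ∑ p ∈ P', (if R p i then (1 : ℝ) else 0) ≤ W := by
        rw [Finset.sum_boole]
        have : (P'.filter fun p => R p i).card ≤ (Pool.filter fun p => R p i).card :=
          Finset.card_le_card (Finset.filter_subset_filter _ Finset.sdiff_subset)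
        exact_mod_cast this.trans (hW i hi)
      have h4 : ∑ _p ∈ P', (1 : ℝ) = P'.card := by simp
      rw [h4]
      gcongr
    have h5 : (0 : ℝ) ≤ (1 + w) ^ (J.filter fun p => R p i).card := by positivity
    exact mul_le_mul_of_nonneg_left h2 h5
  have hsum2 : ∑ p ∈ P', Phi V R w (insert p J) ≤
      ∑ _p ∈ P', Phi V R w J * (1 + w * W / (P'.card : ℝ)) := by
    refine hsum.trans (le_of_eq ?_)
    rw [Finset.sum_const, nsmul_eq_mul]
    field_simp
  exact Finset.exists_le_of_sum_le hne hsum2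

lemma Phi_nonneg {α : Type*} (V : Finset α) (R : ℕ → α → Prop) (w : ℝ) (hw : 0 ≤ w)
    (J : Finset ℕ) : 0 ≤ Phi V R w J := by
  unfold Phi
  positivity

open Classical in
lemma greedy_iter {α : Type*} (V : Finset α) (R : ℕ → α → Prop) (w : ℝ) (hw : 0 ≤ w) (W : ℕ)
    (Pool : Finset ℕ) (hW : ∀ i ∈ V, (Pool.filter fun p => R p i).card ≤ W)
    (s : ℕ) (hs : s < Pool.card) (t : ℕ) (ht : t ≤ s) :
    ∃ J ⊆ Pool, J.card = t ∧ Phi V R w J ≤
      Phi V R w ∅ * (1 + w * W / (((Pool.card - s : ℕ) : ℝ))) ^ t := by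
  induction t with
  | zero => exact ⟨∅, by simp, by simp, by simp⟩
  | succ t ih =>
    obtain ⟨J, hJ, hJc, hJb⟩ := ih (by omega)
    have hcard : (Pool \ J).card = Pool.card - t := by
      rw [Finset.card_sdiff_of_subset hJ, hJc]
    have hne : (Pool \ J).Nonempty := by
      rw [← Finset.card_pos, hcard]
      omega
    obtain ⟨p, hp, hpb⟩ := greedy_one V R w hw W Pool J hW hne
    have hpJ : p ∉ J := (Finset.mem_sdiff.1 hp).2
    refine ⟨insert p J, ?_, ?_, ?_⟩
    · exact Finset.insert_subset (Finset.mem_sdiff.1 hp).1 hJ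
    · rw [Finset.card_insert_of_notMem hpJ, hJc]
    · have h0 : (0 : ℝ) < ((Pool.card - s : ℕ) : ℝ) := by
        have : 0 < Pool.card - s := by omega
        exact_mod_cast this
      have h1 : ((Pool.card - s : ℕ) : ℝ) ≤ ((Pool \ J).card : ℝ) := by
        rw [hcard]
        have : Pool.card - s ≤ Pool.card - t := by omega
        exact_mod_cast this
      have h2 : w * W / ((Pool \ J).card : ℝ) ≤ w * W / ((Pool.card - s : ℕ) : ℝ) := by
        apply div_le_div_of_nonneg_left (by positivity) h0 h1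
      have h3 := Phi_nonneg V R w hw J
      have h4 := Phi_nonneg V R w hw ∅
      calc Phi V R w (insert p J) ≤ Phi V R w J * (1 + w * W / ((Pool \ J).card : ℝ)) := hpb
        _ ≤ Phi V R w J * (1 + w * W / ((Pool.card - s : ℕ) : ℝ)) := by gcongr
        _ ≤ (Phi V R w ∅ * (1 + w * W / ((Pool.card - s : ℕ) : ℝ)) ^ t) *
              (1 + w * W / ((Pool.card - s : ℕ) : ℝ)) := by gcongr
        _ = _ := by rw [pow_succ]; ring

open Classical in
/-- The greedy choice: a set `J` of `s` primes of the pool such that few items of `V` have all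
the primes of any given `I ⊆ J` in relation. -/
theorem exists_good_set {α : Type*} (V : Finset α) (R : ℕ → α → Prop) (w : ℝ) (hw : 0 < w) (W : ℕ)
    (Pool : Finset ℕ) (hW : ∀ i ∈ V, (Pool.filter fun p => R p i).card ≤ W)
    (s : ℕ) (hs : s < Pool.card) (hsW : (s : ℝ) * (w * W) ≤ ((Pool.card - s : ℕ) : ℝ)) :
    ∃ J ⊆ Pool, J.card = s ∧ ∀ I ⊆ J,
      ((V.filter fun i => ∀ p ∈ I, R p i).card : ℝ) * w ^ I.card ≤ 3 * V.card := by
  obtain ⟨J, hJ, hJc, hJb⟩ := greedy_iter V R w hw.le W Pool hW s hs s le_rfl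
  refine ⟨J, hJ, hJc, fun I hI => ?_⟩
  have h0 : (0 : ℝ) < ((Pool.card - s : ℕ) : ℝ) := by
    have : 0 < Pool.card - s := by omega
    exact_mod_cast this
  have hphi0 : Phi V R w ∅ = V.card := by simp [Phi]
  -- the exponential factor is at most three
  have hexp : (1 + w * W / (((Pool.card - s : ℕ) : ℝ))) ^ s ≤ 3 := by
    set x := w * W / (((Pool.card - s : ℕ) : ℝ)) with hx
    have hx0 : 0 ≤ x := by positivity
    have h1 : 1 + x ≤ Real.exp x := by linarith [Real.add_one_le_exp x]
    have h2 : (1 + x) ^ s ≤ Real.exp x ^ s := pow_le_pow_left₀ (by positivity) h1 s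
    rw [← Real.exp_nat_mul] at h2
    have h3 : (s : ℝ) * x ≤ 1 := by
      rw [hx, ← mul_div_assoc, div_le_one h0]
      exact hsW
    have h4 : Real.exp ((s : ℝ) * x) ≤ Real.exp 1 := Real.exp_le_exp.2 h3
    have h5 := Real.exp_one_lt_d9
    linarith
  have hub : Phi V R w J ≤ 3 * V.card := by
    calc Phi V R w J ≤ (V.card : ℝ) * (1 + w * W / (((Pool.card - s : ℕ) : ℝ))) ^ s := by
          rw [← hphi0]; exact hJb
      _ ≤ (V.card : ℝ) * 3 := by gcongr
      _ = _ := by ring
  refine le_trans ?_ hub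
  -- the lower bound
  have hlb : ((V.filter fun i => ∀ p ∈ I, R p i).card : ℝ) * w ^ I.card ≤ Phi V R w J := by
    unfold Phi
    calc ((V.filter fun i => ∀ p ∈ I, R p i).card : ℝ) * w ^ I.card
        = ∑ _i ∈ V.filter (fun i => ∀ p ∈ I, R p i), w ^ I.card := by
          rw [Finset.sum_const, nsmul_eq_mul]
      _ ≤ ∑ i ∈ V.filter (fun i => ∀ p ∈ I, R p i), (1 + w) ^ (J.filter fun p => R p i).card := by
          refine Finset.sum_le_sum fun i hi => ?_
          have h6 : I ⊆ J.filter fun p => R p i := by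
            intro p hp
            exact Finset.mem_filter.2 ⟨hI hp, (Finset.mem_filter.1 hi).2 p hp⟩
          calc w ^ I.card ≤ (1 + w) ^ I.card :=
                pow_le_pow_left₀ hw.le (by linarith) _
            _ ≤ (1 + w) ^ (J.filter fun p => R p i).card :=
                pow_le_pow_right₀ (by linarith) (Finset.card_le_card h6)
      _ ≤ ∑ i ∈ V, (1 + w) ^ (J.filter fun p => R p i).card := by
          refine Finset.sum_le_sum_of_subset_of_nonneg (Finset.filter_subset _ _) ?_
          intro i _ _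
          positivity
  exact hlb

end Vale.Agent.Lib.P012b
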