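import Mathlib

/-!
The main numerical inequality for the covering step.
-/

namespace Vale.Agent.Lib.P012b

open Finset

lemma sum_pow_powerset (J : Finset ℕ) (a : ℝ) :
    ∑ I ∈ J.powerset, a ^ I.card = (1 + a) ^ J.card := by
  have := Finset.sum_pow_mul_eq_add_pow a 1 J
  simp only [one_pow, mul_one] at this
  rw [this, add_comm]

lemma one_add_pow_sub_one_le (z : ℝ) (hz : 0 ≤ z) (s : ℕ) (hsz : (s : ℝ) * z ≤ 1 / 2) :
    (1 + z) ^ s - 1 ≤ 2 * ((s : ℝ) * z) := by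
  set x := (s : ℝ) * z with hx
  have hx0 : 0 ≤ x := by positivity
  have h1 : (1 + z) ^ s ≤ Real.exp x := by
    have h2 : 1 + z ≤ Real.exp z := by linarith [Real.add_one_le_exp z]
    calc (1 + z) ^ s ≤ Real.exp z ^ s := pow_le_pow_left₀ (by positivity) h2 s
      _ = Real.exp x := by rw [← Real.exp_nat_mul]
  have h3 : 1 - x ≤ Real.exp (-x) := by linarith [Real.add_one_le_exp (-x)]
  have h4 : Real.exp x * Real.exp (-x) = 1 := by rw [← Real.exp_add]; simp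
  have h5 : 0 < Real.exp x := Real.exp_pos x
  have h6 : Real.exp x * (1 - x) ≤ 1 := by
    calc Real.exp x * (1 - x) ≤ Real.exp x * Real.exp (-x) := by gcongr
      _ = 1 := h4
  have h7 : Real.exp x ≤ 1 + 2 * x := by
    by_contra hc
    push Not at hc
    have h8 : (1 + 2 * x) * (1 - x) ≤ Real.exp x * (1 - x) := by
      apply mul_le_mul_of_nonneg_right hc.le
      linarith
    nlinarith
  linarith

lemma fourth_add_le (a b : ℝ) : (a + b) ^ 4 ≤ 8 * (a ^ 4 + b ^ 4) := by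
  nlinarith [sq_nonneg (a - b), sq_nonneg (a + b), sq_nonneg (a ^ 2 - b ^ 2), sq_nonneg (a * b),
    sq_nonneg (a ^ 2 + b ^ 2), mul_nonneg (sq_nonneg (a - b)) (sq_nonneg (a + b)),
    mul_nonneg (sq_nonneg (a - b)) (sq_nonneg (a - b)),
    mul_nonneg (sq_nonneg (a - b)) (sq_nonneg (a ^ 2 + b ^ 2))]

theorem main_ineq (J : Finset ℕ) (T V k : ℕ) (hT : 2 ^ 15 ≤ T) (hV : T < 2 ^ V)
    (hs : 37 * V * J.card ≤ T) (hsT : J.card ≤ T) (hJ : ∀ p ∈ J, p ≤ T ^ 12)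
    (hk : 2 * T ≤ 4 * k + 10) (E₁ E₂ : Finset ℕ → ℕ)
    (hE₁ : ∀ I ⊆ J, (E₁ I : ℝ) ≤ 2 * 2 ^ k + 12 * (2 ^ k) ^ 2 / ((T : ℝ) ^ 10) ^ I.card)
    (hE₂ : ∀ I ⊆ J, (E₂ I : ℝ) ≤ 2 * 2 ^ k + 12 * (2 ^ k) ^ 2 / ((T : ℝ) ^ 10) ^ I.card) :
    ∑ I ∈ J.powerset.erase ∅, (∏ p ∈ I, p) ^ 3 * E₁ I ^ 2 * E₂ I ^ 2 < (2 ^ k * 2 ^ k) ^ 4 := by
  have hT1 : (2 : ℝ) ^ 15 ≤ (T : ℝ) := by exact_mod_cast hT
  set τ : ℝ := (T : ℝ) with hτ
  have hτ0 : 0 < τ := by linarith [show (0 : ℝ) < 2 ^ 15 by positivity]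
  have hτ1 : 1 ≤ τ := by linarith [show (1 : ℝ) ≤ 2 ^ 15 by norm_num]
  set Δ : ℝ := (2 : ℝ) ^ k with hΔ
  have hΔ0 : 0 < Δ := by positivity
  set z : ℝ := 1 / τ ^ 4 with hz
  have hz0 : 0 < z := by positivity
  -- bound of a single term
  have hterm : ∀ I ∈ J.powerset.erase ∅,
      (((∏ p ∈ I, p) ^ 3 * E₁ I ^ 2 * E₂ I ^ 2 : ℕ) : ℝ) ≤
        128 * Δ ^ 4 * (τ ^ 36) ^ I.card + 165888 * Δ ^ 8 * z ^ I.card := by
    intro I hI
    have hIJ : I ⊆ J := Finset.mem_powerset.1 (Finset.mem_erase.1 hI).2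
    set c := I.card with hc
    set Q : ℝ := τ ^ c with hQ
    have hQ0 : 0 < Q := by positivity
    have e10 : (τ ^ 10) ^ c = Q ^ 10 := pow_right_comm _ _ _
    have e12 : (τ ^ 12) ^ c = Q ^ 12 := pow_right_comm _ _ _
    have e36 : (τ ^ 36) ^ c = Q ^ 36 := pow_right_comm _ _ _
    have ez : z ^ c = 1 / Q ^ 4 := by
      rw [hz, div_pow, one_pow, ← pow_mul, ← pow_mul, mul_comm]
    set B : ℝ := 2 * Δ + 12 * Δ ^ 2 / Q ^ 10 with hB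
    have hB0 : 0 ≤ B := by positivity
    have h1 : (E₁ I : ℝ) ≤ B := by
      have := hE₁ I hIJ
      rwa [← hc, e10] at this
    have h2 : (E₂ I : ℝ) ≤ B := by
      have := hE₂ I hIJ
      rwa [← hc, e10] at this
    have hprod : ((∏ p ∈ I, p : ℕ) : ℝ) ≤ Q ^ 12 := by
      have h3 : (∏ p ∈ I, p) ≤ (T ^ 12) ^ c := by
        refine Finset.prod_le_pow_card _ _ _ fun p hp => hJ p (hIJ hp)
      calc ((∏ p ∈ I, p : ℕ) : ℝ) ≤ (((T ^ 12) ^ c : ℕ) : ℝ) := by exact_mod_cast h3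
        _ = (τ ^ 12) ^ c := by push_cast; rfl
        _ = Q ^ 12 := e12
    have hprod0 : (0 : ℝ) ≤ ((∏ p ∈ I, p : ℕ) : ℝ) := by positivity
    have h4 : (((∏ p ∈ I, p) ^ 3 * E₁ I ^ 2 * E₂ I ^ 2 : ℕ) : ℝ) ≤
        (Q ^ 12) ^ 3 * B ^ 2 * B ^ 2 := by
      push_cast
      push_cast at hprod
      gcongr
    have h5 : B ^ 4 ≤ 8 * ((2 * Δ) ^ 4 + (12 * Δ ^ 2 / Q ^ 10) ^ 4) := fourth_add_le _ _
    have h7 : Q ^ 36 * (12 * Δ ^ 2 / Q ^ 10) ^ 4 = 20736 * Δ ^ 8 * (1 / Q ^ 4) := by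
      field_simp
      ring
    calc (((∏ p ∈ I, p) ^ 3 * E₁ I ^ 2 * E₂ I ^ 2 : ℕ) : ℝ)
        ≤ (Q ^ 12) ^ 3 * B ^ 2 * B ^ 2 := h4
      _ = Q ^ 36 * B ^ 4 := by ring
      _ ≤ Q ^ 36 * (8 * ((2 * Δ) ^ 4 + (12 * Δ ^ 2 / Q ^ 10) ^ 4)) := by gcongr
      _ = 128 * Δ ^ 4 * Q ^ 36 + 8 * (Q ^ 36 * (12 * Δ ^ 2 / Q ^ 10) ^ 4) := by ring
      _ = _ := by rw [h7, e36, ez]; ring
  -- summing
  set s := J.card with hsdef
  have hempty : ∅ ∈ J.powerset := Finset.empty_mem_powerset J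
  have hsum1 : ∑ I ∈ J.powerset.erase ∅, (τ ^ 36) ^ I.card ≤ (1 + τ ^ 36) ^ s := by
    rw [← sum_pow_powerset]
    exact Finset.sum_le_sum_of_subset_of_nonneg (Finset.erase_subset _ _)
      (fun _ _ _ => by positivity)
  have hsum2 : ∑ I ∈ J.powerset.erase ∅, z ^ I.card = (1 + z) ^ s - 1 := by
    rw [← sum_pow_powerset, Finset.sum_erase_eq_sub hempty]
    simp
  have hV1 : 1 ≤ V := by
    rcases Nat.eq_zero_or_pos V with h | h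
    · subst h
      have : (2 : ℕ) ^ 15 ≤ 2 ^ 0 := hT.trans (Nat.le_of_lt hV)
      norm_num at this
    · exact h
  -- first factor
  have hA : (1 + τ ^ 36) ^ s ≤ 2 ^ T := by
    have h1 : τ ≤ 2 ^ V := by
      have : (T : ℝ) ≤ ((2 ^ V : ℕ) : ℝ) := by exact_mod_cast hV.le
      simpa using this
    have h2 : (1 : ℝ) ≤ τ ^ 36 := one_le_pow₀ hτ1
    have h3 : 1 + τ ^ 36 ≤ 2 ^ (37 * V) := by
      have h4 : τ ^ 36 ≤ ((2 : ℝ) ^ V) ^ 36 := pow_le_pow_left₀ hτ0.le h1 36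
      have h5 : ((2 : ℝ) ^ V) ^ 36 = 2 ^ (36 * V) := by rw [← pow_mul, mul_comm]
      have h6 : (2 : ℝ) ^ (37 * V) = 2 ^ (36 * V) * 2 ^ V := by rw [← pow_add]; congr 1; ring
      have h7 : (2 : ℝ) ≤ 2 ^ V := by
        calc (2 : ℝ) = 2 ^ 1 := by norm_num
          _ ≤ 2 ^ V := pow_le_pow_right₀ (by norm_num) hV1
      have h8 : (1 : ℝ) ≤ 2 ^ (36 * V) := one_le_pow₀ (by norm_num)
      rw [h6]
      nlinarith
    calc (1 + τ ^ 36) ^ s ≤ ((2 : ℝ) ^ (37 * V)) ^ s := pow_le_pow_left₀ (by positivity) h3 s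
      _ = 2 ^ (37 * V * s) := by rw [← pow_mul]
      _ ≤ 2 ^ T := pow_le_pow_right₀ (by norm_num) hs
  have hΔ4 : (256 : ℝ) * 2 ^ T ≤ Δ ^ 4 := by
    have h1 : 8 + T ≤ k * 4 := by omega
    calc (256 : ℝ) * 2 ^ T = 2 ^ (8 + T) := by rw [pow_add]; norm_num
      _ ≤ 2 ^ (k * 4) := pow_le_pow_right₀ (by norm_num) h1
      _ = Δ ^ 4 := by rw [hΔ, pow_mul]
  -- second factor
  have hτ3 : (2 : ℝ) ^ 45 ≤ τ ^ 3 := by
    calc (2 : ℝ) ^ 45 = (2 ^ 15) ^ 3 := by norm_num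
      _ ≤ τ ^ 3 := pow_le_pow_left₀ (by positivity) hT1 3
  have hsτ : (s : ℝ) ≤ τ := by
    have h0 : (s : ℝ) ≤ (T : ℝ) := by exact_mod_cast hsT
    exact h0
  have hsz : (s : ℝ) * z ≤ 1 / τ ^ 3 := by
    have : (s : ℝ) * z ≤ τ * z := by gcongr
    refine this.trans (le_of_eq ?_)
    rw [hz]
    field_simp
  have hsz2 : 1 / τ ^ 3 ≤ 1 / 2 ^ 45 := by
    apply one_div_le_one_div_of_le (by positivity) hτ3
  have hB1 : (1 + z) ^ s - 1 ≤ 2 * (1 / 2 ^ 45) := by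
    have h1 : (s : ℝ) * z ≤ 1 / 2 := by
      refine hsz.trans (hsz2.trans (by norm_num))
    refine (one_add_pow_sub_one_le z hz0.le s h1).trans ?_
    have := hsz.trans hsz2
    linarith
  have hB0 : 0 ≤ (1 + z) ^ s - 1 := by
    have : (1 : ℝ) ≤ (1 + z) ^ s := one_le_pow₀ (by linarith)
    linarith
  -- conclusion
  have hmain : ((∑ I ∈ J.powerset.erase ∅, (∏ p ∈ I, p) ^ 3 * E₁ I ^ 2 * E₂ I ^ 2 : ℕ) : ℝ) <
      ((2 ^ k * 2 ^ k) ^ 4 : ℕ) := by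
    rw [Nat.cast_sum]
    have hΔ8 : (((2 ^ k * 2 ^ k) ^ 4 : ℕ) : ℝ) = Δ ^ 8 := by
      push_cast
      rw [hΔ]
      ring
    rw [hΔ8]
    have hΔ8pos : 0 < Δ ^ 8 := by positivity
    calc ∑ I ∈ J.powerset.erase ∅, (((∏ p ∈ I, p) ^ 3 * E₁ I ^ 2 * E₂ I ^ 2 : ℕ) : ℝ)
        ≤ ∑ I ∈ J.powerset.erase ∅, (128 * Δ ^ 4 * (τ ^ 36) ^ I.card +
            165888 * Δ ^ 8 * z ^ I.card) := Finset.sum_le_sum hterm
      _ = 128 * Δ ^ 4 * ∑ I ∈ J.powerset.erase ∅, (τ ^ 36) ^ I.card +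
            165888 * Δ ^ 8 * ∑ I ∈ J.powerset.erase ∅, z ^ I.card := by
          rw [Finset.sum_add_distrib, Finset.mul_sum, Finset.mul_sum]
      _ ≤ 128 * Δ ^ 4 * (2 ^ T) + 165888 * Δ ^ 8 * (2 * (1 / 2 ^ 45)) := by
          rw [hsum2]
          gcongr
          exact hsum1.trans hA
      _ < Δ ^ 8 := by
          have h1 : 128 * Δ ^ 4 * (2 ^ T) ≤ Δ ^ 8 / 2 := by
            have : Δ ^ 8 = Δ ^ 4 * Δ ^ 4 := by ring
            rw [this]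
            have h2 : (0 : ℝ) < Δ ^ 4 := by positivity
            nlinarith
          have h3 : (165888 : ℝ) * Δ ^ 8 * (2 * (1 / 2 ^ 45)) ≤ Δ ^ 8 / 4 := by
            have : (165888 : ℝ) * (2 * (1 / 2 ^ 45)) ≤ 1 / 4 := by norm_num
            nlinarith
          linarith
  exact_mod_cast hmain

end Vale.Agent.Lib.P012b
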