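import Vale.Agent.Lib.P012b.Step

/-!
Iterating the step: sets of primes of size `2^U` with `O(U²)` terms.
-/

namespace Vale.Agent.Lib.P012b

open Finset

/-- The inductive invariant. -/
def Good (U f : ℕ) : Prop :=
  ∃ P : Finset ℕ, (∀ p ∈ P, p.Prime) ∧ ({2, 3, 5, 7} : Finset ℕ) ⊆ P ∧ 2 ^ U ≤ P.card ∧
    ∏ p ∈ P, p ≤ P.card ^ (12 * P.card) ∧ Rep (∏ p ∈ P, p) f

lemma level_arith (U : ℕ) (hU : 15 ≤ U) : 400 * (U + 1) ≤ 2 ^ U := by
  induction U, hU using Nat.le_induction with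
  | base => norm_num
  | succ n _ ih =>
    rw [pow_succ]
    omega

lemma level_inner (U : ℕ) (hU : 15 ≤ U) (n : ℕ) :
    ∀ (P : Finset ℕ) (g : ℕ), (∀ p ∈ P, p.Prime) → ({2, 3, 5, 7} : Finset ℕ) ⊆ P →
      2 ^ U ≤ P.card → ∏ p ∈ P, p ≤ P.card ^ (12 * P.card) → Rep (∏ p ∈ P, p) g →
      2 ^ (U + 1) ≤ P.card + n * (2 ^ U / (200 * (U + 1))) →
      ∃ P' : Finset ℕ, (∀ p ∈ P', p.Prime) ∧ ({2, 3, 5, 7} : Finset ℕ) ⊆ P' ∧
        2 ^ (U + 1) ≤ P'.card ∧ ∏ p ∈ P', p ≤ P'.card ^ (12 * P'.card) ∧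
        Rep (∏ p ∈ P', p) (g + 4 * n) := by
  induction n with
  | zero =>
    intro P g h1 h2 _ h4 h5 h6
    simp only [zero_mul, add_zero, mul_zero] at h6 ⊢
    exact ⟨P, h1, h2, h6, h4, h5⟩
  | succ n ih =>
    intro P g h1 h2 h3 h4 h5 h6
    by_cases hlarge : 2 ^ (U + 1) ≤ P.card
    · exact ⟨P, h1, h2, hlarge, h4, h5.mono (by omega)⟩
    · push Not at hlarge
      set s := 2 ^ U / (200 * (U + 1)) with hs
      have hdpos : 0 < 200 * (U + 1) := by omega
      have harith := level_arith U hU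
      have hs1 : 1 ≤ s := Nat.div_pos (by omega) hdpos
      have hsmul : 200 * (U + 1) * s ≤ P.card := (Nat.mul_div_le _ _).trans h3
      have h2U : 2 ^ 15 ≤ P.card := (Nat.pow_le_pow_right (by norm_num) hU).trans h3
      obtain ⟨P₁, hsub, hp₁, hcard, hb₁, hr₁⟩ := step P g h1 h2 h2U h4 h5 s (U + 1) hlarge hs1 hsmul
      obtain ⟨P', a1, a2, a3, a4, a5⟩ := ih P₁ (g + 4) hp₁ (h2.trans hsub) (by omega) hb₁ hr₁
        (by
          rw [hcard]
          have : (n + 1) * s = n * s + s := by ring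
          omega)
      exact ⟨P', a1, a2, a3, a4, a5.mono (by omega)⟩

lemma good_succ (U f : ℕ) (hU : 15 ≤ U) (h : Good U f) : Good (U + 1) (f + 1600 * (U + 1)) := by
  obtain ⟨P, h1, h2, h3, h4, h5⟩ := h
  have harith := level_arith U hU
  have hdpos : 0 < 200 * (U + 1) := by omega
  have hcover : 2 ^ (U + 1) ≤ P.card + (400 * (U + 1)) * (2 ^ U / (200 * (U + 1))) := by
    have h6 := Nat.div_add_mod (2 ^ U) (200 * (U + 1))
    have h7 := Nat.mod_lt (2 ^ U) hdpos
    set s := 2 ^ U / (200 * (U + 1)) with hs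
    have h8 : 400 * (U + 1) * s = 2 * (200 * (U + 1) * s) := by ring
    rw [h8, pow_succ]
    omega
  obtain ⟨P', a1, a2, a3, a4, a5⟩ := level_inner U hU (400 * (U + 1)) P f h1 h2 h3 h4 h5 hcover
  exact ⟨P', a1, a2, a3, a4, a5.mono (le_of_eq (by ring))⟩

/-- The number of primes up to `2^20` is at least `2^15`. -/
lemma pi_base : 2 ^ 15 ≤ Nat.primeCounting (2 ^ 20) := by
  have h := pi_lower (2 ^ 20) 2 (by norm_num) (by norm_num)
  generalize Nat.primeCounting (2 ^ 20) = c at h ⊢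
  norm_num at h ⊢
  omega

lemma good_base : ∃ f₀, Good 15 f₀ := by
  classical
  set y : ℕ := 2 ^ 20 with hy
  refine ⟨(primorial y).divisors.card, (Finset.range (y + 1)).filter Nat.Prime, ?_, ?_, ?_, ?_, ?_⟩
  · intro p hp
    exact (Finset.mem_filter.1 hp).2
  · intro p hp
    simp only [Finset.mem_insert, Finset.mem_singleton] at hp
    have h7 : (7 : ℕ) < y + 1 := by rw [hy]; norm_num
    rw [Finset.mem_filter, Finset.mem_range]
    rcases hp with rfl | rfl | rfl | rfl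
    · exact ⟨by omega, by norm_num⟩
    · exact ⟨by omega, by norm_num⟩
    · exact ⟨by omega, by norm_num⟩
    · exact ⟨by omega, by norm_num⟩
  · have h1 : ((Finset.range (y + 1)).filter Nat.Prime).card = Nat.primeCounting y := by
      rw [Nat.primeCounting, ← Nat.primesBelow_card_eq_primeCounting']
      rfl
    rw [h1]
    exact pi_base
  · have h1 : ((Finset.range (y + 1)).filter Nat.Prime).card = Nat.primeCounting y := by
      rw [Nat.primeCounting, ← Nat.primesBelow_card_eq_primeCounting']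
      rfl
    rw [h1]
    have h2 : ∏ p ∈ (Finset.range (y + 1)).filter Nat.Prime, p = primorial y := rfl
    rw [h2]
    have h3 := pi_base
    rw [← hy] at h3
    generalize Nat.primeCounting y = T at h3 ⊢
    have h4 : primorial y ≤ 4 ^ y := primorial_le_four_pow y
    refine h4.trans ?_
    have h5 : (4 : ℕ) ^ y = 2 ^ (2 * y) := by rw [pow_mul]; norm_num
    rw [h5]
    have h6 : (2 : ℕ) ^ (2 * y) ≤ 2 ^ (15 * (12 * 2 ^ 15)) :=
      Nat.pow_le_pow_right (by norm_num) (by rw [hy]; norm_num)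
    refine h6.trans ?_
    rw [pow_mul]
    calc ((2 : ℕ) ^ 15) ^ (12 * 2 ^ 15) ≤ T ^ (12 * 2 ^ 15) := Nat.pow_le_pow_left h3 _
      _ ≤ T ^ (12 * T) := Nat.pow_le_pow_right (by
          have : (1 : ℕ) ≤ 2 ^ 15 := by norm_num
          omega) (by omega)
  · exact rep_primorial' y

/-- The quadratic bound on the number of terms at each level. -/
lemma good_all : ∃ f₀, ∀ t, Good (15 + t) (f₀ + 1600 * t * (16 + t)) := by
  obtain ⟨f₀, h₀⟩ := good_base
  refine ⟨f₀, fun t => ?_⟩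
  induction t with
  | zero => simpa using h₀
  | succ t ih =>
    have h := good_succ (15 + t) (f₀ + 1600 * t * (16 + t)) (by omega) ih
    obtain ⟨P, h1, h2, h3, h4, h5⟩ := h
    refine ⟨P, h1, h2, h3, h4, h5.mono ?_⟩
    nlinarith

end Vale.Agent.Lib.P012b
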