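import Mathlib

/-!
The pool of primes, and the sets of divisors used in the covering step.
-/

namespace Vale.Agent.Lib.P012b

open Finset

lemma pi_lower (X V : ℕ) (hX : 2 ≤ X) (h : X + 1 ≤ 2 ^ (12 * V)) :
    X ≤ 12 * V * (Nat.primeCounting X + 1) := by
  have h1 := Chebyshev.pi_ge X
  have hlog2 : 0 < Real.log 2 := Real.log_pos (by norm_num)
  have hlogX : 0 < Real.log X := Real.log_pos (by exact_mod_cast (by omega : 1 < X))
  have h2 : Real.log ((X : ℝ) + 1) ≤ (12 * V : ℕ) * Real.log 2 := by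
    have : ((X : ℝ) + 1) ≤ (2 : ℝ) ^ (12 * V) := by exact_mod_cast h
    calc Real.log ((X : ℝ) + 1) ≤ Real.log ((2 : ℝ) ^ (12 * V)) :=
          Real.log_le_log (by positivity) this
      _ = _ := by rw [Real.log_pow]
  have h3 : Real.log (X : ℝ) ≤ (12 * V : ℕ) * Real.log 2 := by
    refine le_trans (Real.log_le_log (by positivity) ?_) h2
    linarith
  rw [div_le_iff₀ hlogX] at h1
  have hpi0 : (0 : ℝ) ≤ (Nat.primeCounting X : ℝ) := by positivity
  have h4 : (X : ℝ) * Real.log 2 ≤ (12 * V : ℕ) * Real.log 2 * ((Nat.primeCounting X : ℝ) + 1) := by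
    have h5 : (Nat.primeCounting X : ℝ) * Real.log X ≤
        (Nat.primeCounting X : ℝ) * ((12 * V : ℕ) * Real.log 2) := by gcongr
    nlinarith
  have h6 : (X : ℝ) ≤ (12 * V : ℕ) * ((Nat.primeCounting X : ℝ) + 1) := by
    have h7 : (X : ℝ) * Real.log 2 ≤ ((12 * V : ℕ) * ((Nat.primeCounting X : ℝ) + 1)) * Real.log 2 := by
      calc _ ≤ _ := h4
        _ = _ := by ring
    exact le_of_mul_le_mul_right h7 hlog2
  exact_mod_cast h6

/-- The pool of primes `p ≤ T^12` above `T^6` outside `P`. -/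
def pool (P : Finset ℕ) (T : ℕ) : Finset ℕ :=
  (Nat.primesBelow (T ^ 12 + 1)).filter fun p => T ^ 6 < p ∧ p ∉ P

lemma mem_pool {P : Finset ℕ} {T p : ℕ} (h : p ∈ pool P T) :
    p.Prime ∧ p ≤ T ^ 12 ∧ T ^ 6 < p ∧ p ∉ P := by
  obtain ⟨h1, h2, h3⟩ := Finset.mem_filter.1 h
  have h4 := Nat.mem_primesBelow.1 h1
  exact ⟨h4.2, by omega, h2, h3⟩

lemma pool_card (P : Finset ℕ) (T s V : ℕ) (hP : P.card = T) (hT : 2 ^ 15 ≤ T) (hV : T < 2 ^ V)
    (hs : 200 * V * s ≤ T) (hs1 : 1 ≤ s) :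
    s * (T ^ 10 * (2 * T)) + s ≤ (pool P T).card := by
  classical
  by_contra hlt
  push Not at hlt
  have hV0 : 1 ≤ V := by
    rcases Nat.eq_zero_or_pos V with h | h
    · subst h
      have : (2 : ℕ) ^ 15 ≤ 2 ^ 0 := hT.trans (Nat.le_of_lt hV)
      norm_num at this
    · exact h
  have hV1 : V ≤ T := by nlinarith
  have hsT : s ≤ T := by nlinarith
  have hsub : Nat.primesBelow (T ^ 12 + 1) ⊆ pool P T ∪ (range (T ^ 6 + 1) ∪ P) := by
    intro p hp
    by_cases h1 : p ≤ T ^ 6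
    · exact Finset.mem_union_right _ (Finset.mem_union_left _ (Finset.mem_range.2 (by omega)))
    · by_cases h2 : p ∈ P
      · exact Finset.mem_union_right _ (Finset.mem_union_right _ h2)
      · exact Finset.mem_union_left _ (Finset.mem_filter.2 ⟨hp, by omega, h2⟩)
  have hcard : Nat.primeCounting (T ^ 12) ≤ (pool P T).card + (T ^ 6 + 1 + T) := by
    have h1 : Nat.primeCounting (T ^ 12) = (Nat.primesBelow (T ^ 12 + 1)).card := by
      rw [Nat.primesBelow_card_eq_primeCounting']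
      rfl
    rw [h1]
    calc (Nat.primesBelow (T ^ 12 + 1)).card ≤ (pool P T ∪ (range (T ^ 6 + 1) ∪ P)).card :=
          Finset.card_le_card hsub
      _ ≤ (pool P T).card + (range (T ^ 6 + 1) ∪ P).card := Finset.card_union_le _ _
      _ ≤ (pool P T).card + ((range (T ^ 6 + 1)).card + P.card) := by
          gcongr
          exact Finset.card_union_le _ _
      _ = _ := by rw [Finset.card_range, hP]
  have hT2 : 2 ≤ T ^ 12 := by
    calc 2 ≤ T := by
          have : 2 ≤ 2 ^ 15 := by norm_num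
          omega
      _ ≤ T ^ 12 := Nat.le_self_pow (by norm_num) T
  have hX1 : T ^ 12 + 1 ≤ 2 ^ (12 * V) := by
    calc T ^ 12 + 1 ≤ (T + 1) ^ 12 :=
          Nat.succ_le_of_lt (Nat.pow_lt_pow_left (Nat.lt_succ_self T) (by norm_num))
      _ ≤ (2 ^ V) ^ 12 := Nat.pow_le_pow_left hV 12
      _ = 2 ^ (12 * V) := by rw [← pow_mul, mul_comm]
  have hpi := pi_lower (T ^ 12) V hT2 hX1
  have h1 : T ^ 12 ≤ 12 * V * (s * (T ^ 10 * (2 * T)) + s + T ^ 6 + T + 2) := by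
    refine hpi.trans (Nat.mul_le_mul_left _ ?_)
    omega
  have h2 : 12 * V * (s * (T ^ 10 * (2 * T)) + s + T ^ 6 + T + 2) =
      24 * (V * s) * T ^ 11 + 12 * V * (s + T ^ 6 + T + 2) := by ring
  have h3 : 25 * (24 * (V * s) * T ^ 11) ≤ 3 * T ^ 12 := by
    have h4 : 200 * (V * s) ≤ T := by nlinarith
    have h5 : T ^ 12 = T * T ^ 11 := by ring
    rw [h5]
    have h6 : 200 * (V * s) * T ^ 11 ≤ T * T ^ 11 := Nat.mul_le_mul_right _ h4
    nlinarith
  have hT1 : 1 ≤ T := by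
    have : 1 ≤ 2 ^ 15 := by norm_num
    omega
  have hT6 : T ≤ T ^ 6 := Nat.le_self_pow (by norm_num) T
  have hT6' : 1 ≤ T ^ 6 := by omega
  have h7 : 2 * (12 * V * (s + T ^ 6 + T + 2)) ≤ T ^ 12 := by
    have h8 : s + T ^ 6 + T + 2 ≤ 5 * T ^ 6 := by omega
    have h9 : 12 * V * (s + T ^ 6 + T + 2) ≤ 12 * T * (5 * T ^ 6) := by gcongr
    have h10 : T ^ 12 = T ^ 5 * (T * T ^ 6) := by ring
    have h11 : 120 ≤ T ^ 5 := by
      calc 120 ≤ (2 ^ 15) ^ 5 := by norm_num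
        _ ≤ T ^ 5 := Nat.pow_le_pow_left hT 5
    have h12 : 120 * (T * T ^ 6) ≤ T ^ 5 * (T * T ^ 6) := Nat.mul_le_mul_right _ h11
    rw [h10]
    nlinarith
  have hpos : 0 < T ^ 12 := by omega
  omega

/-- The set of squarefree products of the elements of `S`. -/
def divs (S : Finset ℕ) : Finset ℕ := S.powerset.image fun A => ∏ p ∈ A, p

lemma card_divs (S : Finset ℕ) (hS : ∀ p ∈ S, p.Prime) : (divs S).card = 2 ^ S.card := by
  rw [divs, Finset.card_image_of_injOn, Finset.card_powerset]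
  intro A hA B hB h
  have hA' : A ⊆ S := Finset.mem_powerset.1 hA
  have hB' : B ⊆ S := Finset.mem_powerset.1 hB
  have h1 := Nat.primeFactors_prod (s := A) fun p hp => hS p (hA' hp)
  have h2 := Nat.primeFactors_prod (s := B) fun p hp => hS p (hB' hp)
  simp only at h
  rw [← h1, ← h2, h]

lemma dvd_of_mem_divs {S : Finset ℕ} {x : ℕ} (h : x ∈ divs S) : x ∣ ∏ p ∈ S, p := by
  obtain ⟨A, hA, rfl⟩ := Finset.mem_image.1 h
  exact Finset.prod_dvd_prod_of_subset _ _ _ (Finset.mem_powerset.1 hA)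

lemma not_dvd_of_mem_divs {S : Finset ℕ} (hS : ∀ p ∈ S, p.Prime) {x c : ℕ} (h : x ∈ divs S)
    (hc : c.Prime) (hcS : c ∉ S) : ¬ c ∣ x := by
  obtain ⟨A, hA, rfl⟩ := Finset.mem_image.1 h
  intro hd
  obtain ⟨p, hp, hcp⟩ := (Prime.dvd_finsetProd_iff hc.prime _).1 hd
  have hp' := Finset.mem_powerset.1 hA hp
  have := (Nat.prime_dvd_prime_iff_eq hc (hS p hp')).1 hcp
  exact hcS (this ▸ hp')

/-- The number of pool primes dividing a nonzero difference is small. -/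
lemma card_dvd_le (Pool : Finset ℕ) (hprime : ∀ p ∈ Pool, p.Prime) (Y W N x x' : ℕ) (hY : 2 ≤ Y)
    (hYP : ∀ p ∈ Pool, Y < p) (hN : N ≤ Y ^ W) (hx : x ≤ N) (hx' : x' ≤ N) (hne : x ≠ x') :
    (Pool.filter fun p : ℕ => (p : ℤ) ∣ (x : ℤ) - (x' : ℤ)).card ≤ W := by
  set A := Pool.filter fun p : ℕ => (p : ℤ) ∣ (x : ℤ) - (x' : ℤ) with hA
  set d := ((x : ℤ) - (x' : ℤ)).natAbs with hd
  have hd0 : 0 < d := by
    rw [hd, Int.natAbs_pos]
    omega
  have hdN : d ≤ N := by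
    rw [hd]
    omega
  have hdvd : ∏ p ∈ A, p ∣ d := by
    apply Finset.prod_primes_dvd _ (fun p hp => (hprime p (Finset.mem_filter.1 hp).1).prime)
    intro p hp
    exact Int.natCast_dvd.1 (Finset.mem_filter.1 hp).2
  have h1 : ∏ p ∈ A, p ≤ d := Nat.le_of_dvd hd0 hdvd
  have h2 : Y ^ A.card ≤ ∏ p ∈ A, p := by
    rw [← Finset.prod_const]
    exact Finset.prod_le_prod' fun p hp => (hYP p (Finset.mem_filter.1 hp).1).le
  have h3 : Y ^ A.card ≤ Y ^ W := h2.trans (h1.trans (hdN.trans hN))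
  exact (Nat.pow_le_pow_iff_right (by omega)).1 h3

end Vale.Agent.Lib.P012b
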