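import Mathlib

/-!
Representations of integers as sums of few distinct divisors: the peeling step and the base case.
-/

namespace Vale.Agent.Lib.P012b

open Finset

/-- Every `m ≤ N` is a sum of at most `f` distinct divisors of `N`. -/
def Rep (N f : ℕ) : Prop :=
  ∀ m ≤ N, ∃ A : Finset ℕ, (∀ d ∈ A, d ∣ N) ∧ A.card ≤ f ∧ ∑ d ∈ A, d = m

lemma Rep.mono {N f g : ℕ} (h : Rep N f) (hfg : f ≤ g) : Rep N g := by
  intro m hm
  obtain ⟨A, h1, h2, h3⟩ := h m hm
  exact ⟨A, h1, h2.trans hfg, h3⟩

/-- The peeling step. -/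
theorem rep_step {N q f : ℕ} (hrep : Rep N f) (hq : 1 < q) (hco : Nat.Coprime N q)
    (hcov : ∀ m : ℕ, ∃ d₁ d₂ d₃ d₄ : ℕ, d₁ ∣ N ∧ d₂ ∣ N ∧ d₃ ∣ N ∧ d₄ ∣ N ∧
      d₁ ≠ d₂ ∧ d₁ ≠ d₃ ∧ d₁ ≠ d₄ ∧ d₂ ≠ d₃ ∧ d₂ ≠ d₄ ∧ d₃ ≠ d₄ ∧
      d₁ + d₂ + d₃ + d₄ ≤ N ∧ m ≡ d₁ + d₂ + d₃ + d₄ [MOD q]) :
    Rep (N * q) (f + 4) := by
  classical
  intro m hm
  by_cases hmN : m ≤ N
  · obtain ⟨A, h1, h2, h3⟩ := hrep m hmN
    exact ⟨A, fun d hd => (h1 d hd).mul_right q, by omega, h3⟩
  push Not at hmN
  obtain ⟨d₁, d₂, d₃, d₄, h1, h2, h3, h4, n12, n13, n14, n23, n24, n34, hle, hmod⟩ := hcov m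
  set S := d₁ + d₂ + d₃ + d₄ with hS
  have hSm : S ≤ m := by omega
  have hdvd : q ∣ m - S := (Nat.modEq_iff_dvd' hSm).1 hmod.symm
  obtain ⟨m', hm'⟩ := hdvd
  have hm'N : m' ≤ N := by
    have : q * m' ≤ q * N := by
      calc q * m' = m - S := hm'.symm
        _ ≤ m := Nat.sub_le _ _
        _ ≤ N * q := hm
        _ = q * N := Nat.mul_comm _ _
    exact Nat.le_of_mul_le_mul_left this (by omega)
  obtain ⟨A, hA1, hA2, hA3⟩ := hrep m' hm'N
  have hnd : ∀ d, d ∣ N → ¬ q ∣ d := by
    intro d hd hqd
    have h5 : q ∣ N := hqd.trans hd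
    have h6 : q ∣ 1 := by
      have := Nat.dvd_gcd h5 (dvd_refl q)
      rwa [hco] at this
    have := Nat.le_of_dvd one_pos h6
    omega
  set B : Finset ℕ := {d₁, d₂, d₃, d₄} with hB
  have hBsum : ∑ d ∈ B, d = S := by
    rw [hB, Finset.sum_insert (by simp [n12, n13, n14]), Finset.sum_insert (by simp [n23, n24]),
      Finset.sum_insert (by simp [n34]), Finset.sum_singleton, hS]
    ring
  have hdisj : Disjoint B (A.image fun a => q * a) := by
    rw [Finset.disjoint_left]
    intro d hd hd'
    obtain ⟨a, _, rfl⟩ := Finset.mem_image.1 hd'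
    have hdN : (q * a) ∣ N := by
      simp only [hB, Finset.mem_insert, Finset.mem_singleton] at hd
      rcases hd with h | h | h | h <;> rw [h] <;> assumption
    exact hnd _ hdN (dvd_mul_right q a)
  refine ⟨B ∪ A.image (fun a => q * a), ?_, ?_, ?_⟩
  · intro d hd
    rcases Finset.mem_union.1 hd with hd | hd
    · simp only [hB, Finset.mem_insert, Finset.mem_singleton] at hd
      apply Dvd.dvd.mul_right
      rcases hd with h | h | h | h <;> rw [h] <;> assumption
    · obtain ⟨a, ha, rfl⟩ := Finset.mem_image.1 hd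
      rw [Nat.mul_comm N q]
      exact Nat.mul_dvd_mul_left q (hA1 a ha)
  · calc (B ∪ A.image (fun a => q * a)).card ≤ B.card + (A.image (fun a => q * a)).card :=
          Finset.card_union_le _ _
      _ ≤ 4 + f := by
          refine Nat.add_le_add Finset.card_le_four (Finset.card_image_le.trans hA2)
      _ = f + 4 := by ring
  · rw [Finset.sum_union hdisj, hBsum, Finset.sum_image]
    · rw [← Finset.mul_sum, hA3, ← hm']
      omega
    · intro a _ b _ hab
      exact Nat.eq_of_mul_eq_mul_left (by omega) hab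

/-- Every `m ≤ y#` is a sum of distinct divisors of `y#` (primorials are practical). -/
theorem rep_primorial (y : ℕ) :
    ∀ m ≤ primorial y, ∃ A : Finset ℕ, (∀ d ∈ A, d ∣ primorial y) ∧ ∑ d ∈ A, d = m := by
  classical
  induction y with
  | zero =>
    intro m hm
    have h1 : primorial 0 = 1 := by decide
    rw [h1] at hm ⊢
    interval_cases m
    · exact ⟨∅, by simp, by simp⟩
    · exact ⟨{1}, by simp, by simp⟩
  | succ y ih =>
    by_cases hp : (y + 1).Prime
    · have h1 : primorial (y + 1) = (y + 1) * primorial y := by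
        unfold primorial
        rw [Finset.range_add_one, Finset.filter_insert, if_pos hp,
          Finset.prod_insert (by simp)]
      set N := primorial y with hN
      have hNpos : 0 < N := primorial_pos y
      -- `p ∤ N`
      have hpN : ¬ (y + 1) ∣ N := by
        intro h
        have := (Prime.dvd_finsetProd_iff hp.prime _).1 h
        obtain ⟨q, hq, hd⟩ := this
        have hq' := Finset.mem_filter.1 hq
        have := (Nat.prime_dvd_prime_iff_eq hp hq'.2).1 hd
        have := Finset.mem_range.1 hq'.1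
        omega
      -- Euclid: `p ≤ N + 1`
      have hEuclid : y + 1 ≤ N + 1 := by
        have hne : N + 1 ≠ 1 := by omega
        have hmf := Nat.minFac_prime hne
        have hdv := Nat.minFac_dvd (N + 1)
        have hge : y + 1 ≤ (N + 1).minFac := by
          by_contra hlt
          push Not at hlt
          have hmem : (N + 1).minFac ∈ (Finset.range (y + 1)).filter Nat.Prime :=
            Finset.mem_filter.2 ⟨Finset.mem_range.2 hlt, hmf⟩
          have hdN : (N + 1).minFac ∣ N := Finset.dvd_prod_of_mem (fun p => p) hmem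
          have : (N + 1).minFac ∣ 1 := (Nat.dvd_add_right hdN).1 hdv
          exact hmf.one_lt.ne' (Nat.dvd_one.1 this)
        exact hge.trans (Nat.minFac_le (by omega))
      intro m hm
      rw [h1] at hm ⊢
      have hu : m / (y + 1) ≤ N := Nat.div_le_of_le_mul hm
      have hv : m % (y + 1) ≤ N := by
        have := Nat.mod_lt m (show 0 < y + 1 by omega)
        omega
      obtain ⟨A, hA1, hA2⟩ := ih _ hu
      obtain ⟨B, hB1, hB2⟩ := ih _ hv
      have hdisj : Disjoint B (A.image fun a => (y + 1) * a) := by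
        rw [Finset.disjoint_left]
        intro d hd hd'
        obtain ⟨a, _, rfl⟩ := Finset.mem_image.1 hd'
        exact hpN ((dvd_mul_right _ a).trans (hB1 _ hd))
      refine ⟨B ∪ A.image (fun a => (y + 1) * a), ?_, ?_⟩
      · intro d hd
        rcases Finset.mem_union.1 hd with hd | hd
        · exact (hB1 d hd).mul_left _
        · obtain ⟨a, ha, rfl⟩ := Finset.mem_image.1 hd
          exact Nat.mul_dvd_mul_left _ (hA1 a ha)
      · rw [Finset.sum_union hdisj, hB2, Finset.sum_image]
        · rw [← Finset.mul_sum, hA2]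
          exact Nat.mod_add_div m (y + 1)
        · intro a _ b _ hab
          exact Nat.eq_of_mul_eq_mul_left (by omega) hab
    · have h1 : primorial (y + 1) = primorial y := by
        unfold primorial
        rw [Finset.range_add_one, Finset.filter_insert, if_neg hp]
      rw [h1]
      exact ih

theorem rep_primorial' (y : ℕ) : Rep (primorial y) (primorial y).divisors.card := by
  intro m hm
  obtain ⟨A, h1, h2⟩ := rep_primorial y m hm
  refine ⟨A, h1, Finset.card_le_card fun d hd => ?_, h2⟩
  exact Nat.mem_divisors.2 ⟨h1 d hd, (primorial_pos y).ne'⟩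

end Vale.Agent.Lib.P012b
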