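import Vale.Agent.Lib.P012b.Covering
import Vale.Agent.Lib.P012b.Greedy
import Vale.Agent.Lib.P012b.Rep
import Vale.Agent.Lib.P012b.Pool
import Vale.Agent.Lib.P012b.Ineq

/-!
One step: enlarge the set of primes by `s` new primes at the cost of four more terms.
-/

namespace Vale.Agent.Lib.P012b

open Finset

lemma EE_le (Z D I : Finset ℕ) (hZ : Z ⊆ D) :
    EE Z I ≤ D.card +
      (D.offDiag.filter fun z : ℕ × ℕ => ∀ p ∈ I, (p : ℤ) ∣ (z.1 : ℤ) - (z.2 : ℤ)).card := by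
  classical
  have hsub : ((Z ×ˢ Z).filter fun z : ℕ × ℕ => ∀ p ∈ I, (p : ℤ) ∣ (z.1 : ℤ) - (z.2 : ℤ)) ⊆
      D.diag ∪ (D.offDiag.filter fun z : ℕ × ℕ => ∀ p ∈ I, (p : ℤ) ∣ (z.1 : ℤ) - (z.2 : ℤ)) := by
    intro z hz
    obtain ⟨h1, h2⟩ := Finset.mem_filter.1 hz
    obtain ⟨h3, h4⟩ := Finset.mem_product.1 h1
    by_cases h : z.1 = z.2
    · exact Finset.mem_union_left _ (Finset.mem_diag.2 ⟨hZ h3, h⟩)
    · exact Finset.mem_union_right _
        (Finset.mem_filter.2 ⟨Finset.mem_offDiag.2 ⟨hZ h3, hZ h4, h⟩, h2⟩)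
  calc EE Z I ≤ _ := Finset.card_le_card hsub
    _ ≤ _ := Finset.card_union_le _ _
    _ = _ := by rw [Finset.diag_card]

theorem step (P : Finset ℕ) (f : ℕ) (hprime : ∀ p ∈ P, p.Prime)
    (hbase : ({2, 3, 5, 7} : Finset ℕ) ⊆ P) (hT : 2 ^ 15 ≤ P.card)
    (hN : ∏ p ∈ P, p ≤ P.card ^ (12 * P.card))
    (hrep : Rep (∏ p ∈ P, p) f) (s V : ℕ) (hV : P.card < 2 ^ V) (hs1 : 1 ≤ s)
    (hs : 200 * V * s ≤ P.card) :
    ∃ P' : Finset ℕ, P ⊆ P' ∧ (∀ p ∈ P', p.Prime) ∧ P'.card = P.card + s ∧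
      ∏ p ∈ P', p ≤ P'.card ^ (12 * P'.card) ∧ Rep (∏ p ∈ P', p) (f + 4) := by
  classical
  set T := P.card with hTdef
  set N := ∏ p ∈ P, p with hNdef
  have hNpos : 0 < N := Finset.prod_pos fun p hp => (hprime p hp).pos
  have hT2 : 2 ≤ T := le_trans (by norm_num) hT
  have hV0 : 1 ≤ V := by
    rcases Nat.eq_zero_or_pos V with h | h
    · subst h
      have : (2 : ℕ) ^ 15 ≤ 2 ^ 0 := hT.trans (Nat.le_of_lt hV)
      norm_num at this
    · exact h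
  have hsT : s ≤ T := by nlinarith
  -- splitting the primes
  set Base : Finset ℕ := {2, 3, 5, 7} with hBase
  set P₀ := P \ Base with hP₀
  have hP₀card : P₀.card = T - 4 := by
    rw [hP₀, Finset.card_sdiff_of_subset hbase]
    rfl
  set k := (T - 4) / 2 with hk
  obtain ⟨S, hSsub, hScard⟩ := Finset.exists_subset_card_eq (s := P₀) (n := k) (by omega)
  have hP₁card : (P₀ \ S).card = T - 4 - k := by
    rw [Finset.card_sdiff_of_subset hSsub, hP₀card, hScard]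
  obtain ⟨S', hS'sub, hS'card⟩ := Finset.exists_subset_card_eq (s := P₀ \ S) (n := k) (by omega)
  have hSP : ∀ p ∈ S, p ∈ P ∧ p ∉ Base := fun p hp => Finset.mem_sdiff.1 (hSsub hp)
  have hS'P : ∀ p ∈ S', p ∈ P ∧ p ∉ Base := fun p hp =>
    Finset.mem_sdiff.1 (Finset.mem_sdiff.1 (hS'sub hp)).1
  have hSprime : ∀ p ∈ S, p.Prime := fun p hp => hprime p (hSP p hp).1
  have hS'prime : ∀ p ∈ S', p.Prime := fun p hp => hprime p (hS'P p hp).1
  set X := divs S with hX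
  set Y := divs S' with hY
  have hXcard : X.card = 2 ^ k := by rw [hX, card_divs S hSprime, hScard]
  have hYcard : Y.card = 2 ^ k := by rw [hY, card_divs S' hS'prime, hS'card]
  set M := (∏ p ∈ S, p) * ∏ p ∈ S', p with hM
  have hMN : 210 * M ∣ N := by
    have h1 : ∏ p ∈ Base, p = 210 := by
      rw [hBase]
      decide
    have h2 : N = (∏ p ∈ P₀, p) * ∏ p ∈ Base, p := (Finset.prod_sdiff hbase).symm
    have h3 : ∏ p ∈ P₀, p = (∏ p ∈ P₀ \ S, p) * ∏ p ∈ S, p := (Finset.prod_sdiff hSsub).symm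
    have h4 : ∏ p ∈ P₀ \ S, p = (∏ p ∈ (P₀ \ S) \ S', p) * ∏ p ∈ S', p :=
      (Finset.prod_sdiff hS'sub).symm
    rw [h2, h3, h4, h1, hM]
    exact ⟨∏ p ∈ (P₀ \ S) \ S', p, by ring⟩
  have hMpos : 0 < M := by
    rw [hM]
    exact Nat.mul_pos (Finset.prod_pos fun p hp => (hSprime p hp).pos)
      (Finset.prod_pos fun p hp => (hS'prime p hp).pos)
  have hMleN : 210 * M ≤ N := Nat.le_of_dvd hNpos hMN
  have hXdvd : ∀ x ∈ X, x ∣ N := fun x hx =>
    ((dvd_of_mem_divs hx).trans (Dvd.intro _ rfl)).trans ((Dvd.intro_left _ rfl).trans hMN)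
  have hYdvd : ∀ y ∈ Y, y ∣ N := fun y hy =>
    ((dvd_of_mem_divs hy).trans (Dvd.intro_left _ rfl)).trans ((Dvd.intro_left _ rfl).trans hMN)
  -- the set of all relevant divisors and the relation
  set D := X ∪ Y with hD
  have hDle : ∀ x ∈ D, x ≤ N := by
    intro x hx
    rcases Finset.mem_union.1 hx with h | h
    · exact Nat.le_of_dvd hNpos (hXdvd x h)
    · exact Nat.le_of_dvd hNpos (hYdvd x h)
  have hDcard : D.card ≤ 2 * 2 ^ k := by
    calc D.card ≤ X.card + Y.card := Finset.card_union_le _ _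
      _ = _ := by rw [hXcard, hYcard]; ring
  have hTpos : 0 < T := by omega
  have hT6 : 2 ≤ T ^ 6 := hT2.trans (Nat.le_self_pow (by norm_num) T)
  let R : ℕ → ℕ × ℕ → Prop := fun p z => (p : ℤ) ∣ (z.1 : ℤ) - (z.2 : ℤ)
  have hW : ∀ i ∈ D.offDiag, ((pool P T).filter fun p => R p i).card ≤ 2 * T := by
    rintro ⟨x, x'⟩ hi
    obtain ⟨h1, h2, h3⟩ := Finset.mem_offDiag.1 hi
    refine card_dvd_le (pool P T) (fun p hp => (mem_pool hp).1) (T ^ 6) (2 * T) N x x' hT6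
      (fun p hp => (mem_pool hp).2.2.1) ?_ (hDle x h1) (hDle x' h2) h3
    calc N ≤ T ^ (12 * T) := hN
      _ = (T ^ 6) ^ (2 * T) := by rw [← pow_mul]; congr 1; ring
  -- applying the greedy lemma
  have hpool := pool_card P T s V rfl hT hV hs hs1
  have hone : 1 ≤ T ^ 10 * (2 * T) := Nat.mul_pos (by positivity) (by omega)
  have hs2 : s < (pool P T).card := by
    have : s * 1 ≤ s * (T ^ 10 * (2 * T)) := Nat.mul_le_mul_left _ hone
    omega
  have hTreal : (0 : ℝ) < (T : ℝ) := by exact_mod_cast hTpos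
  obtain ⟨J, hJsub, hJcard, hJgood⟩ := exists_good_set D.offDiag R ((T : ℝ) ^ 10)
    (by positivity) (2 * T) (pool P T) (fun i hi => by convert hW i hi) s hs2 (by
      have h1 : s * (T ^ 10 * (2 * T)) ≤ (pool P T).card - s := by omega
      have h2 : ((s * (T ^ 10 * (2 * T)) : ℕ) : ℝ) ≤ (((pool P T).card - s : ℕ) : ℝ) := by
        exact_mod_cast h1
      refine le_trans (le_of_eq ?_) h2
      push_cast
      ring)
  have hJp : ∀ p ∈ J, p.Prime ∧ p ≤ T ^ 12 ∧ T ^ 6 < p ∧ p ∉ P := fun p hp => mem_pool (hJsub hp)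
  have hJprime : ∀ p ∈ J, p.Prime := fun p hp => (hJp p hp).1
  -- the bound on the number of coincidences
  have hEbound : ∀ Z ⊆ D, ∀ I ⊆ J, (EE Z I : ℝ) ≤
      2 * 2 ^ k + 12 * (2 ^ k) ^ 2 / ((T : ℝ) ^ 10) ^ I.card := by
    intro Z hZ I hI
    have h1 := EE_le Z D I hZ
    have h2 : (((D.offDiag.filter fun z : ℕ × ℕ => ∀ p ∈ I, (p : ℤ) ∣ (z.1 : ℤ) - (z.2 : ℤ)).card : ℕ) : ℝ) *
        ((T : ℝ) ^ 10) ^ I.card ≤ 3 * D.offDiag.card := by
      convert hJgood I hI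
    have hw : (0 : ℝ) < ((T : ℝ) ^ 10) ^ I.card := by positivity
    have h3 : (D.offDiag.card : ℝ) ≤ (2 * 2 ^ k) ^ 2 := by
      have h4 : D.offDiag.card ≤ (2 * 2 ^ k) ^ 2 := by
        rw [Finset.offDiag_card]
        calc D.card * D.card - D.card ≤ D.card * D.card := Nat.sub_le _ _
          _ ≤ (2 * 2 ^ k) * (2 * 2 ^ k) := Nat.mul_le_mul hDcard hDcard
          _ = _ := by ring
      exact_mod_cast h4
    have h5 : (((D.offDiag.filter fun z : ℕ × ℕ => ∀ p ∈ I, (p : ℤ) ∣ (z.1 : ℤ) - (z.2 : ℤ)).card : ℕ) : ℝ)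
        ≤ 12 * (2 ^ k) ^ 2 / ((T : ℝ) ^ 10) ^ I.card := by
      rw [le_div_iff₀ hw]
      refine h2.trans ?_
      have : (3 : ℝ) * D.offDiag.card ≤ 3 * (2 * 2 ^ k) ^ 2 := by gcongr
      refine this.trans (le_of_eq ?_)
      ring
    have h6 : (EE Z I : ℝ) ≤ D.card +
        (((D.offDiag.filter fun z : ℕ × ℕ => ∀ p ∈ I, (p : ℤ) ∣ (z.1 : ℤ) - (z.2 : ℤ)).card : ℕ) : ℝ) := by
      exact_mod_cast h1
    have h7 : (D.card : ℝ) ≤ 2 * 2 ^ k := by exact_mod_cast hDcard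
    linarith
  -- the numerical inequality
  have hsum := main_ineq J T V k hT hV (by rw [hJcard]; nlinarith) (by rw [hJcard]; exact hsT)
    (fun p hp => (hJp p hp).2.1) (by omega) (EE X) (EE Y)
    (hEbound X Finset.subset_union_left) (hEbound Y Finset.subset_union_right)
  -- the modulus
  set q := ∏ p ∈ J, p with hq
  have hqpos : 0 < q := Finset.prod_pos fun p hp => (hJprime p hp).pos
  have : NeZero q := ⟨hqpos.ne'⟩
  have hJbig : ∀ p ∈ J, ∀ c : ℕ, 0 < c → c ≤ 7 → ¬ p ∣ c := by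
    intro p hp c hc0 hc7 hd
    have h1 := Nat.le_of_dvd hc0 hd
    have h2 := (hJp p hp).2.2.1
    have h3 : T ≤ T ^ 6 := Nat.le_self_pow (by norm_num) T
    have h4 : 2 ^ 15 ≤ T := hT
    norm_num at h4
    omega
  have hcov0 := covering (q := q) J hJprime rfl X Y 2 3 5 7
    (fun p hp => hJbig p hp 2 (by norm_num) (by norm_num))
    (fun p hp => hJbig p hp 3 (by norm_num) (by norm_num))
    (fun p hp => hJbig p hp 5 (by norm_num) (by norm_num))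
    (fun p hp => hJbig p hp 7 (by norm_num) (by norm_num))
    (by rw [hXcard, hYcard]; exact hsum)
  -- primes of `Base` do not divide the elements of `X`, `Y`
  have hnotS : ∀ c ∈ Base, c ∉ S := fun c hc hcS => (hSP c hcS).2 hc
  have hnotS' : ∀ c ∈ Base, c ∉ S' := fun c hc hcS => (hS'P c hcS).2 hc
  have hBprime : ∀ c ∈ Base, c.Prime := fun c hc => hprime c (hbase hc)
  have hdist : ∀ c ∈ Base, ∀ c' ∈ Base, c ≠ c' → ∀ x y x' y', x' ∈ X → y' ∈ Y →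
      c * (x * y) ≠ c' * (x' * y') := by
    intro c hc c' hc' hne x y x' y' hx' hy' he
    have hcp := hBprime c hc
    have h1 : c ∣ c' * (x' * y') := ⟨x * y, he.symm⟩
    rcases (Nat.Prime.dvd_mul hcp).1 h1 with h2 | h2
    · exact hne ((Nat.prime_dvd_prime_iff_eq hcp (hBprime c' hc')).1 h2)
    · rcases (Nat.Prime.dvd_mul hcp).1 h2 with h3 | h3
      · exact not_dvd_of_mem_divs hSprime hx' hcp (hnotS c hc) h3
      · exact not_dvd_of_mem_divs hS'prime hy' hcp (hnotS' c hc) h3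
  have hXYle : ∀ x ∈ X, ∀ y ∈ Y, x * y ≤ M := by
    intro x hx y hy
    apply Nat.mul_le_mul
    · exact Nat.le_of_dvd (Finset.prod_pos fun p hp => (hSprime p hp).pos) (dvd_of_mem_divs hx)
    · exact Nat.le_of_dvd (Finset.prod_pos fun p hp => (hS'prime p hp).pos) (dvd_of_mem_divs hy)
  have hcdvd : ∀ c, c ∣ 210 → ∀ x ∈ X, ∀ y ∈ Y, c * (x * y) ∣ N := by
    intro c hc x hx y hy
    refine Dvd.dvd.trans (Nat.mul_dvd_mul hc ?_) hMN
    exact Nat.mul_dvd_mul (dvd_of_mem_divs hx) (dvd_of_mem_divs hy)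
  have m2 : (2 : ℕ) ∈ Base := by simp [hBase]
  have m3 : (3 : ℕ) ∈ Base := by simp [hBase]
  have m5 : (5 : ℕ) ∈ Base := by simp [hBase]
  have m7 : (7 : ℕ) ∈ Base := by simp [hBase]
  have hcov : ∀ m : ℕ, ∃ d₁ d₂ d₃ d₄ : ℕ, d₁ ∣ N ∧ d₂ ∣ N ∧ d₃ ∣ N ∧ d₄ ∣ N ∧
      d₁ ≠ d₂ ∧ d₁ ≠ d₃ ∧ d₁ ≠ d₄ ∧ d₂ ≠ d₃ ∧ d₂ ≠ d₄ ∧ d₃ ≠ d₄ ∧
      d₁ + d₂ + d₃ + d₄ ≤ N ∧ m ≡ d₁ + d₂ + d₃ + d₄ [MOD q] := by
    intro m
    obtain ⟨x₁, hx₁, y₁, hy₁, x₂, hx₂, y₂, hy₂, x₃, hx₃, y₃, hy₃, x₄, hx₄, y₄, hy₄, he⟩ :=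
      hcov0 (m : ZMod q)
    refine ⟨2 * (x₁ * y₁), 3 * (x₂ * y₂), 5 * (x₃ * y₃), 7 * (x₄ * y₄),
      hcdvd 2 (by norm_num) x₁ hx₁ y₁ hy₁, hcdvd 3 (by norm_num) x₂ hx₂ y₂ hy₂,
      hcdvd 5 (by norm_num) x₃ hx₃ y₃ hy₃, hcdvd 7 (by norm_num) x₄ hx₄ y₄ hy₄,
      hdist 2 m2 3 m3 (by norm_num) _ _ _ _ hx₂ hy₂,
      hdist 2 m2 5 m5 (by norm_num) _ _ _ _ hx₃ hy₃,
      hdist 2 m2 7 m7 (by norm_num) _ _ _ _ hx₄ hy₄,
      hdist 3 m3 5 m5 (by norm_num) _ _ _ _ hx₃ hy₃,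
      hdist 3 m3 7 m7 (by norm_num) _ _ _ _ hx₄ hy₄,
      hdist 5 m5 7 m7 (by norm_num) _ _ _ _ hx₄ hy₄, ?_, ?_⟩
    · have h1 := hXYle x₁ hx₁ y₁ hy₁
      have h2 := hXYle x₂ hx₂ y₂ hy₂
      have h3 := hXYle x₃ hx₃ y₃ hy₃
      have h4 := hXYle x₄ hx₄ y₄ hy₄
      omega
    · apply (ZMod.natCast_eq_natCast_iff _ _ _).1
      rw [he]
      push_cast
      ring
  -- disjointness
  have hdisj : Disjoint P J := by
    rw [Finset.disjoint_right]
    intro p hp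
    exact (hJp p hp).2.2.2
  have hco : Nat.Coprime N q := by
    apply Nat.Coprime.prod_left
    intro p hp
    apply Nat.Coprime.prod_right
    intro p' hp'
    refine (Nat.coprime_primes (hprime p hp) (hJprime p' hp')).2 ?_
    rintro rfl
    exact (hJp p hp').2.2.2 hp
  have hJne : J.Nonempty := by
    rw [← Finset.card_pos, hJcard]
    omega
  have hq1 : 1 < q := by
    obtain ⟨p, hp⟩ := hJne
    have h1 : p ∣ q := Finset.dvd_prod_of_mem _ hp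
    have h2 := Nat.le_of_dvd hqpos h1
    have h3 := (hJprime p hp).two_le
    omega
  have hstep := rep_step hrep hq1 hco hcov
  have hprodU : ∏ p ∈ P ∪ J, p = N * q := Finset.prod_union hdisj
  have hcardU : (P ∪ J).card = T + s := by
    rw [Finset.card_union_of_disjoint hdisj, hJcard]
  refine ⟨P ∪ J, Finset.subset_union_left, ?_, hcardU, ?_, ?_⟩
  · intro p hp
    rcases Finset.mem_union.1 hp with h | h
    · exact hprime p h
    · exact hJprime p h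
  · rw [hprodU, hcardU]
    have h1 : N ≤ (T + s) ^ (12 * T) :=
      hN.trans (Nat.pow_le_pow_left (by omega) _)
    have h2 : q ≤ (T + s) ^ (12 * s) := by
      have h3 : q ≤ (T ^ 12) ^ s := by
        rw [← hJcard]
        exact Finset.prod_le_pow_card _ _ _ fun p hp => (hJp p hp).2.1
      calc q ≤ (T ^ 12) ^ s := h3
        _ = T ^ (12 * s) := by rw [← pow_mul]
        _ ≤ _ := Nat.pow_le_pow_left (by omega) _
    calc N * q ≤ (T + s) ^ (12 * T) * (T + s) ^ (12 * s) := Nat.mul_le_mul h1 h2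
      _ = _ := by rw [← pow_add]; congr 1; ring
  · rw [hprodU]
    exact hstep

end Vale.Agent.Lib.P012b
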